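import Vale.Agent.P284Y.X.Sk23
import Vale.Agent.P284Z.F0.Cov.Ch

/-!
# P284Y, row X4: the output

`XF`: the data which do not depend on the stage. `XS`: the data of one stage.
-/

open scoped ContDiff Topology ComplexOrder ComplexConjugate ENNReal Matrix
open Filter Set Function Metric MeasureTheory

noncomputable section

namespace Vale.Agent.P284Y.X4

open Vale.Agent.P272.K Vale.Agent.P284.H608.K Vale.Agent.P284Z Vale.Agent.P284Z.J Vale.Agent.P284Z.L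
  Vale.Agent.P284Y.X

variable {n p : ℕ} {Γ E : Type} [Group Γ] [TopologicalSpace E] [MulAction Γ E] {C : Cov n Γ E}

/-- the constants, the majorant and the set of positive measure -/
structure XF (X : XL C p) where
  A : ℝ
  M : ℝ
  B : ℝ
  β : ℝ
  β_pos : 0 < β
  R₁ : ℝ
  R₂ : ℝ
  R₃ : ℝ
  R₁_pos : 0 < R₁
  R₁_lt : R₁ < R₂
  R₂_lt : R₂ < R₃
  R₃_lt : R₃ < X.R
  Bκ : Γ → C.I → ℝ≥0∞
  Bκ_lt : ∀ γ a, Bκ γ a < ⊤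
  maj : Cm p → ℝ≥0∞
  maj_meas : Measurable maj
  maj_int : ∫⁻ t in ball X.t₀ R₂, maj t < ⊤
  G : Set (Cm p)
  G_pos : ∀ r > (0 : ℝ), 0 < volume (G ∩ ball X.t₀ r)

/-- The functions on the base: the weight `ψ`, the cut-off `g` of `Pf` and the bound `Λ` of `∂̄ g`. -/
structure BS {X : XL C p} (F : XF X) (Pf : Cm p → ℂ) (j : ℕ) (N : ℝ) (ψ : Cm p → ℝ)
    (g : Cm p → ℂ) (Λ : Cm p → ℝ) : Prop where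
  ψ_sm : ∀ t ∈ ball X.t₀ F.R₃, ContDiffAt ℝ ∞ ψ t
  ψ_psd : ∀ t ∈ ball X.t₀ F.R₃, (cHess ψ t).PosSemidef
  g_sm : ∀ t ∈ ball X.t₀ F.R₃, ContDiffAt ℝ ∞ g t
  Λ_nonneg : ∀ t, 0 ≤ Λ t
  Λ_psd : ∀ t ∈ ball X.t₀ F.R₃, ((Λ t : ℂ) • cHess ψ t - bb g t).PosSemidef
  supp : ∀ t, F.R₁ ≤ ‖t - X.t₀‖ → g t = 0 ∧ Λ t = 0
  Λ_le : ∀ t ∈ ball X.t₀ F.R₂, ENNReal.ofReal (Λ t * Real.exp (-ψ t)) ≤ F.maj t
  jet : ∀ t ∈ ball X.t₀ F.R₂, ENNReal.ofReal (‖g t - Pf t‖ ^ 2 * pw n X.t₀ j t) ≤ F.maj t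
  g_le : ∀ t ∈ ball X.t₀ F.R₂,
    ENNReal.ofReal (‖g t‖ ^ 2 * Real.exp (-ψ t)) ≤ ENNReal.ofReal N * F.maj t
  pw_le : ∀ t ∈ ball X.t₀ F.R₂, pw n X.t₀ j t ≤ F.B * Real.exp (-ψ t)
  pos : ∀ t ∈ F.G, t ∈ ball X.t₀ F.R₂ → (cHess ψ t - (F.β : ℂ) • (1 : Mx p)).PosSemidef

/-- One stage: the metric `A ω + i∂∂̄ κ` on `E`, the smooth weights `ψ γ a I` of the `k`-th power of the
line bundle over the open set `O`, the cut-off `χ`, and the functions on the base. -/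
structure XS {X : XL C p} (F : XF X) (k : ℕ) (Pf : Cm p → ℂ) (j : ℕ) (N e : ℝ) where
  O : Set E
  O_opn : IsOpen O
  cover : ∀ γ a, ∀ z ∈ C.cB (3 / 2) a, C.pt γ a z ∈ O → ∃ I, z ∈ X.U a I
  κ : E → ℝ
  κ_sm : ∀ y, C.SmAt κ y
  κ_ge : Psd C (C.om F.A κ - C.om 1 fun _ => 0) univ
  κ_int : ∀ γ a, ∫⁻ z in C.B (3 / 2) a, ‖κ (C.pt γ a z)‖ₑ ≤ F.Bκ γ a
  κ_tube : ∃ κb : Cm p → ℝ, (∀ t ∈ ball X.t₀ F.R₃, ContDiffAt ℝ ∞ κb t) ∧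
    ∀ y ∈ X.T, X.s y ∈ ball X.t₀ F.R₃ → κ y = κb (X.s y)
  ψ : Γ → C.I → (Fin p → Fin n) → Cm n → ℝ
  ψ_sm : ∀ γ a I, ∀ z ∈ X.U a I, C.pt γ a z ∈ O → ContDiffAt ℝ ∞ (ψ γ a I) z
  ψ_psd : ∀ γ a I, ∀ z ∈ X.U a I, C.pt γ a z ∈ O →
    (cHess (ψ γ a I) z + (e : ℂ) • C.om F.A κ γ a z).PosSemidef
  ψ_ch : ∀ γ g a b I J z, C.Ov g a b z → z ∈ X.U a I → C.tr g a b z ∈ X.U b J →
    ψ (γ * g) a I z = ψ γ b J (C.tr g a b z) +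
      k * Real.log (‖X.θ b J (C.tr g a b z) (trv C g a b z (eb I))‖ ^ 2)
  up : ∀ γ a I, ∀ z ∈ X.U a I, z ∈ C.cB (3 / 2) a → C.pt γ a z ∈ O → ∀ v : Fin p → Cm n,
    ‖v‖ ≤ 1 → ‖X.θ a I z v‖ ^ (2 * k) * Real.exp (ψ γ a I z) ≤ F.M
  χ : E → ℝ
  χ_sm : ∀ y, C.SmAt χ y
  χ_nonneg : ∀ y, 0 ≤ χ y
  χ_le : ∀ y, χ y ≤ 1
  χ_supp : ∃ L, IsCompact L ∧ L ⊆ O ∧ ∀ y ∉ L, χ y = 0
  χ_grad : Psd C ((e : ℂ) • C.om F.A κ - C.gg χ χ) univ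
  ψb : Cm p → ℝ
  gb : Cm p → ℂ
  Λ : Cm p → ℝ
  bs : BS F Pf j N ψb gb Λ
  ψ_tube : ∀ γ a I, ∀ z ∈ X.U a I, C.pt γ a z ∈ X.T → X.s (C.pt γ a z) ∈ ball X.t₀ F.R₃ →
    ψ γ a I z = ψb (X.s (C.pt γ a z)) + k * Real.log (‖ds C X.s γ a z (eb I)‖ ^ 2)
  one : ∀ y ∈ X.T, X.s y ∈ tsupport gb → ∀ᶠ y' in 𝓝 y, χ y' = 1

/-- **X4** -/
def StX4 : Prop :=
  ∀ (n p : ℕ) (Γ E : Type) [Group Γ] [Countable Γ] [TopologicalSpace E] [T2Space E]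
    [ConnectedSpace E] [MulAction Γ E] (C : Cov n Γ E) (X : XL C p), ∃ k : ℕ, 1 ≤ k ∧
    ∀ Pf : Cm p → ℂ, Differentiable ℂ Pf → ∃ F : XF X, ∀ᶠ j in atTop, ∃ N : ℝ, 0 ≤ N ∧
      ∀ e > (0 : ℝ), Nonempty (XS F k Pf j N e)

end Vale.Agent.P284Y.X4
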