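import Vale.Agent.P284Y.X4.Sk
import Vale.Agent.P284Z.L.S1.Loc
import Vale.Agent.P284Z.J.G1
import Vale.Agent.P284Z.J.JB
import Vale.Agent.P284Z.F.Lp
import Vale.Agent.P284.H752.K1
import Vale.Agent.P284.H419.K.Int

/-!
# P284Y, row X4, piece A: the norms of the frames and the weights on `E`
-/

open scoped ContDiff Topology ComplexOrder ComplexConjugate ENNReal Matrix
open Filter Set Function Metric MeasureTheory

noncomputable section

namespace Vale.Agent.P284Y.X4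

open Vale.Agent.P272.K Vale.Agent.P284.H608.K Vale.Agent.P284Z Vale.Agent.P284Z.J Vale.Agent.P284Z.L
  Vale.Agent.P284Y.X

namespace Ad

open Vale.Agent.P284.H752 (k1Stmt)
open Vale.Agent.P284.H419.K (hn_smooth evA exists_linv exists_ev_bd)

variable {n p : ℕ} {Γ E : Type} [Group Γ] [TopologicalSpace E] [MulAction Γ E] {C : Cov n Γ E}
  {γ γ' g : Γ} {a b : C.I} {z z' : Cm n}

theorem nm_smul (c : ℂ) (A : Af n p) : nm C a z (c • A) = ‖c‖ ^ 2 * nm C a z A := S1.hn_smul _ c A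

theorem nm_pos (hz : z ∈ C.B 4 a) {A : Af n p} (hA : A ≠ 0) : 0 < nm C a z A :=
  (Complex.lt_def.1 (k1Stmt.pos n p _ (C.ρ_pos a z hz) A hA)).1

theorem nm_tr (h : C.Ov g a b z) (A : Af n p) :
    nm C a z (A.compContinuousLinearMap (fderiv ℂ (C.tr g a b) z)) = nm C b (C.tr g a b z) A := by
  have e2 : jm (C.tr g a b) z =
      LinearMap.toMatrix' (fderiv ℂ (C.tr g a b) z : Cm n →ₗ[ℂ] Cm n) := by
    ext i j
    rw [LinearMap.toMatrix'_apply]
    rfl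
  rw [nm, JGx.rho_ch jb h, pb, e2, k1Stmt.pull n p _ _ (C.ρ_pos b _ (C.tr_mem h))
    ⟨LeftInverse.injective (C.fderiv_tr_inv h), RightInverse.surjective (C.fderiv_tr_inv' h)⟩]
  rfl

theorem nm_sm (hz : z ∈ C.B 4 a) {A : Cm n → Af n p} (hA : AnalyticAt ℂ A z) :
    ContDiffAt ℝ ∞ (fun w => nm C a w (A w)) z :=
  have h := (hA.contDiffAt (n := ∞)).restrict_scalars ℝ
  Complex.reCLM.contDiff.contDiffAt.comp z
    (hn_smooth (INT.smooth_cHess (C.ρ_sm a z hz)) (JGx.det_ne hz) h h)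

theorem nm_cont (hz : z ∈ C.B 4 a) (A : Af n p) :
    ContinuousAt (fun q : Cm n × Af n p => nm C a q.1 q.2) (z, A) := by
  have h1 : ∀ i j, ContinuousAt (fun q : Cm n × Af n p => (cHess (C.ρ a) q.1)⁻¹ i j) (z, A) :=
    fun i j => by
      have h : ContinuousAt (fun w => (cHess (C.ρ a) w)⁻¹ i j) z := (C2.MC.inv (A := cHess (C.ρ a))
        (INT.smooth_cHess (C.ρ_sm a z hz)) (JGx.det_ne hz) i j).continuousAt
      exact ContinuousAt.comp (f := Prod.fst) (x := (z, A)) h continuousAt_fst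
  have h2 : ∀ s, Continuous fun q : Cm n × Af n p => ev q.2 s := fun s =>
    ((continuous_apply s).comp evA.continuous).comp continuous_snd
  refine Complex.continuous_re.continuousAt.comp (continuousAt_const.mul ?_)
  refine tendsto_finsetSum _ fun s _ => tendsto_finsetSum _ fun t _ => ?_
  exact ((h2 s).mul (Complex.continuous_conj.comp (h2 t))).continuousAt.mul
    (tendsto_finsetProd _ fun i _ => h1 (t i) (s i))

theorem homog_bd {Y V : Type} [TopologicalSpace Y] [NormedAddCommGroup V] [NormedSpace ℂ V]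
    [ProperSpace V] {K : Set Y} (hK : IsCompact K) {F : Y → V → ℝ}
    (hc : ∀ z ∈ K, ∀ A, ContinuousAt (fun q : Y × V => F q.1 q.2) (z, A))
    (hp : ∀ z ∈ K, ∀ A, A ≠ 0 → 0 < F z A) (hs : ∀ z (c : ℂ) A, F z (c • A) = ‖c‖ ^ 2 * F z A) :
    ∃ M ≥ (0 : ℝ), ∀ z ∈ K, ∀ A, F z A ≤ M * ‖A‖ ^ 2 ∧ ‖A‖ ^ 2 ≤ M * F z A := by
  have hp' : ∀ q ∈ K ×ˢ sphere (0 : V) 1, 0 < F q.1 q.2 := fun q hq =>
    hp _ hq.1 _ (ne_zero_of_mem_unit_sphere ⟨q.2, hq.2⟩)
  obtain ⟨M, hM⟩ := (hK.prod (isCompact_sphere (0 : V) 1)).bddAbove_image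
    (f := fun q => F q.1 q.2 + (F q.1 q.2)⁻¹) fun q hq =>
      ((hc _ hq.1 q.2).add ((hc _ hq.1 q.2).inv₀ (hp' q hq).ne')).continuousWithinAt
  refine ⟨|M|, abs_nonneg M, fun z hz A => ?_⟩
  by_cases hA : A = 0
  · have := hs z 0 A
    rw [zero_smul, norm_zero, zero_pow two_ne_zero, zero_mul] at this
    rw [hA, this, norm_zero, zero_pow two_ne_zero, mul_zero]
    exact ⟨le_rfl, le_rfl⟩
  have hn := norm_pos_iff.2 hA
  have h1 : (z, ((‖A‖⁻¹ : ℝ) : ℂ) • A) ∈ K ×ˢ sphere (0 : V) 1 :=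
    ⟨hz, by simp [norm_smul, inv_mul_cancel₀ hn.ne']⟩
  have h2 := (hM ⟨_, h1, rfl⟩).trans (le_abs_self M)
  have h3 := hp' _ h1
  have e : F z A = ‖A‖ ^ 2 * F z (((‖A‖⁻¹ : ℝ) : ℂ) • A) := by
    rw [hs, Complex.norm_real, norm_inv, norm_norm]
    field_simp
  rw [e]
  dsimp only at h2 h3
  set t := F z (((‖A‖⁻¹ : ℝ) : ℂ) • A)
  have h5 := inv_pos.2 h3
  have h6 : 1 ≤ |M| * t := by
    rw [← inv_mul_cancel₀ h3.ne']
    exact mul_le_mul_of_nonneg_right (by linarith) h3.le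
  have h7 := pow_pos hn 2
  constructor <;> nlinarith

theorem nm_bd₀ (a : C.I) : ∃ M ≥ (0 : ℝ), ∀ z ∈ C.cB (7 / 4) a, ∀ A : Af n p,
    nm C a z A ≤ M * ‖A‖ ^ 2 ∧ ‖A‖ ^ 2 ≤ M * nm C a z A := by
  obtain ⟨l, hl⟩ := exists_linv (n := n) (p := p)
  have : FiniteDimensional ℂ (Af n p) :=
    FiniteDimensional.of_injective (evA (n := n) (p := p)).toLinearMap (LeftInverse.injective hl)
  have : ProperSpace (Af n p) := FiniteDimensional.proper ℂ _
  have h4 := C.cB_sub_B (k := 7 / 4) (k' := 4) (by norm_num) a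
  exact homog_bd (F := nm C a) (C.isCompact_cB (7 / 4) a) (fun z hz A => nm_cont (h4 hz) A)
    (fun z hz A hA => nm_pos (h4 hz) hA) fun z c A => nm_smul c A

theorem norm_eb (I : Fin p → Fin n) : ‖eb I‖ ≤ 1 :=
  (pi_norm_le_iff_of_nonneg zero_le_one).2 fun j => by rw [eb, Pi.norm_single, norm_one]

theorem apply_le (A : Af n p) {v : Fin p → Cm n} (hv : ‖v‖ ≤ 1) : ‖A v‖ ^ 2 ≤ ‖A‖ ^ 2 :=
  pow_le_pow_left₀ (norm_nonneg _) (A.unit_le_opNorm hv) 2

variable (C p) in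
theorem nm_bd : ∃ M ≥ (1 : ℝ), ∀ a, ∀ z ∈ C.B (7 / 4) a, ∀ A : Af n p,
    nm C a z A ≤ M * ∑ s, ‖A (eb s)‖ ^ 2 ∧ ∑ s, ‖A (eb s)‖ ^ 2 ≤ M * nm C a z A ∧
      ∀ v, ‖v‖ ≤ 1 → ‖A v‖ ^ 2 ≤ M * nm C a z A := by
  choose M h0 hM using fun a => nm_bd₀ (C := C) (p := p) a
  obtain ⟨D, hD, h1⟩ := exists_ev_bd (n := n) (p := p)
  set N : ℝ := (Fintype.card (Fin p → Fin n) : ℝ) with hN
  have hN0 : 0 ≤ N := Nat.cast_nonneg _
  have hS : 0 ≤ ∑ a, M a := Finset.sum_nonneg fun a _ => h0 a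
  refine ⟨(∑ a, M a) * (D ^ 2 * N + N + 1) + 1, le_add_of_nonneg_left (by positivity),
    fun a z hz A => ?_⟩
  obtain ⟨h2, h3⟩ := hM a z (C.B_sub_cB _ a hz) A
  have h4 : M a ≤ ∑ a, M a := Finset.single_le_sum (fun a _ => h0 a) (Finset.mem_univ a)
  have h5 : 0 ≤ nm C a z A := by
    by_cases hA : A = 0
    · simp [hA, nm, hn, ev]
    · exact (nm_pos (C.B_mono (by norm_num) a hz) hA).le
  have h6 : ‖A‖ ^ 2 ≤ D ^ 2 * N * ∑ s, ‖A (eb s)‖ ^ 2 := by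
    refine (pow_le_pow_left₀ (norm_nonneg _) (h1 A) 2).trans ?_
    rw [mul_pow, mul_assoc]
    exact mul_le_mul_of_nonneg_left (sq_sum_le_card_mul_sum_sq (s := Finset.univ)
      (f := fun s => ‖ev A s‖)) (sq_nonneg D)
  have h7 : ∑ s, ‖A (eb s)‖ ^ 2 ≤ N * ‖A‖ ^ 2 :=
    (Finset.sum_le_card_nsmul _ _ _ fun s _ => apply_le A (norm_eb s)).trans_eq (nsmul_eq_mul _ _)
  have h8 : 0 ≤ ∑ s, ‖A (eb s)‖ ^ 2 := Finset.sum_nonneg fun _ _ => sq_nonneg _
  have h9 := h3.trans (mul_le_mul_of_nonneg_right h4 h5)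
  have hD2 : 0 ≤ D ^ 2 * N := by positivity
  refine ⟨h2.trans (((mul_le_mul h4 h6 (sq_nonneg _) hS)).trans ?_),
    h7.trans ((mul_le_mul_of_nonneg_left h9 hN0).trans ?_),
    fun v hv => ((apply_le A hv).trans h9).trans ?_⟩
  · rw [← mul_assoc]
    exact mul_le_mul_of_nonneg_right (by nlinarith) h8
  · rw [← mul_assoc]
    exact mul_le_mul_of_nonneg_right (by nlinarith) h5
  · exact mul_le_mul_of_nonneg_right (by nlinarith) h5

variable (X : XL C p) {I J : Fin p → Fin n}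

theorem U4 (hz : z ∈ X.U a I) : z ∈ C.B 4 a := C.B_mono (by norm_num) a (X.U_sub a I hz)

theorem N_pos (hz : z ∈ X.U a I) : 0 < nm C a z (X.θ a I z) := nm_pos (U4 X hz) fun h => by
  have := X.θ_one a I z hz
  rw [h] at this
  exact zero_ne_one this

theorem N_ch (h : C.Ov g a b z) (hz : z ∈ X.U a I) (hz' : C.tr g a b z ∈ X.U b J) :
    nm C b (C.tr g a b z) (X.θ b J (C.tr g a b z)) =
      ‖X.θ b J (C.tr g a b z) (trv C g a b z (eb I))‖ ^ 2 * nm C a z (X.θ a I z) := by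
  rw [← nm_tr h, ← nm_smul]
  congr 1
  ext v
  exact (X.θ_ch g a b I J z h hz hz').2 v

theorem u_an (h : C.Ov g a b z) (hz' : C.tr g a b z ∈ X.U b J) :
    AnalyticAt ℂ (fun w => X.θ b J (C.tr g a b w) (trv C g a b w (eb I))) z := by
  simp only [Vale.Agent.P284.H619.K.map_expand (X.θ b J _)]
  refine Finset.analyticAt_fun_sum _ fun s _ => (Finset.analyticAt_fun_prod _ fun i _ => ?_).mul ?_
  · exact analyticAt_pi_iff.1 (((ContinuousLinearMap.apply ℂ (Cm n) (eb I i)).analyticAt _).comp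
      (C.an_tr h).fderiv) (s i)
  · exact analyticAt_pi_iff.1 ((evA.analyticAt _).comp
      ((X.θ_an b J _ hz').comp (C.an_tr h))) s

/-- the norm of `ds` -/
def NT (y : E) : ℝ := nm C (C.ch₀ y).2.1 (C.ch₀ y).2.2
  (dF (fun w => X.s (C.pt (C.ch₀ y).1 (C.ch₀ y).2.1 w)) (C.ch₀ y).2.2)

theorem NT_pt (hz : z ∈ C.B 4 a) (hT : C.pt γ a z ∈ X.T) :
    NT X (C.pt γ a z) = nm C a z (dF (fun w => X.s (C.pt γ a w)) z) := by
  obtain ⟨h1, h2⟩ := JGx.ch₀_spec (C := C) (C.pt γ a z)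
  obtain ⟨o, e⟩ := C.Ov_of_eq hz h1 h2.symm
  have h3 := X.sub.hol _ _ _ h1 (h2.symm ▸ hT)
  rw [← e] at h3
  rw [S1.dF_comp (C.an_tr o).differentiableAt h3.differentiableAt
    ((C.ev_Ov o).mono fun w hw => by
      beta_reduce
      rw [C.pt_tr hw, mul_inv_cancel_left]), nm_tr o, e]
  rfl

theorem NT_sm {y : E} (hy : y ∈ X.T) : C.SmAt (NT X) y := by
  rintro γ a z hz rfl
  refine (nm_sm hz (S1.dF_an (X.sub.hol γ a z hz hy))).congr_of_eventuallyEq ?_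
  filter_upwards [(C.isOpen_preimage_pt γ a X.sub.opn).mem_nhds ⟨hz, hy⟩] with w hw
  exact NT_pt X hw.1 hw.2

theorem NT_pos {y : E} (hy : y ∈ X.T) : 0 < NT X y := by
  obtain ⟨h1, h2⟩ := JGx.ch₀_spec (C := C) y
  obtain ⟨ξ, -, h3⟩ := S1.exists_dual (X.sub.surj _ _ _ h1 (h2.symm ▸ hy))
  refine nm_pos h1 fun h => ?_
  rw [h] at h3
  exact zero_ne_one h3

open Classical in
/-- a weight times the norm of the frame -/
def wt (Q : Γ → C.I → (Fin p → Fin n) → Cm n → ℝ) (y : E) : ℝ :=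
  if h : ∃ q : Γ × C.I × (Fin p → Fin n) × Cm n, q.2.2.2 ∈ X.U q.2.1 q.2.2.1 ∧
      C.pt q.1 q.2.1 q.2.2.2 = y then
    Q h.choose.1 h.choose.2.1 h.choose.2.2.1 h.choose.2.2.2 *
      nm C h.choose.2.1 h.choose.2.2.2 (X.θ h.choose.2.1 h.choose.2.2.1 h.choose.2.2.2)
  else 0

theorem wt_eq {Q : Γ → C.I → (Fin p → Fin n) → Cm n → ℝ}
    (hQ : ∀ γ g a b I J z, C.Ov g a b z → z ∈ C.B 2 a → C.tr g a b z ∈ X.U b J →
      Q (γ * g) a I z = ‖X.θ b J (C.tr g a b z) (trv C g a b z (eb I))‖ ^ 2 *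
        Q γ b J (C.tr g a b z)) (hz : z ∈ X.U a I) :
    wt X Q (C.pt γ a z) = Q γ a I z * nm C a z (X.θ a I z) := by
  have h : ∃ q : Γ × C.I × (Fin p → Fin n) × Cm n, q.2.2.2 ∈ X.U q.2.1 q.2.2.1 ∧
      C.pt q.1 q.2.1 q.2.2.2 = C.pt γ a z := ⟨(γ, a, I, z), hz, rfl⟩
  rw [wt, dif_pos h]
  obtain ⟨h1, h2⟩ := h.choose_spec
  generalize h.choose = q at h1 h2
  obtain ⟨o, e⟩ := C.Ov_of_eq (U4 X hz) (U4 X h1) h2.symm
  rw [← e] at h1 ⊢
  have h3 := hQ q.1 _ a _ I _ z o (X.U_sub a I hz) h1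
  rw [mul_inv_cancel_left] at h3
  rw [N_ch X o hz h1, h3]
  ring

theorem pd : PD (tu X) (fun a z => ∑ I, X.Q a I z) X.Hb where
  psh a := lpsh_sum _ fun I _ => X.Q_psh a I
  pos := X.P_pos
  ch := ⟨X.K, fun γ a γ' b z hz z' hz' h => by
    obtain ⟨o, rfl⟩ := C.Ov_of_eq (C.B_mono (by norm_num) a hz) (C.B_mono (by norm_num) b hz') h
    exact X.P_ch _ a b z o hz hz'⟩
  pshb := X.Hb_psh
  posb := X.Hb_psh.ae_pos isOpen_ball (convex_ball _ _).isPreconnected (mem_ball_self X.R_pos)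
    X.Hb_pos
  tube r hr := by
    obtain ⟨M, hM, h1⟩ := nm_bd p C
    obtain ⟨L, hL⟩ := (X.cpt r hr).bddAbove_image (f := fun y => NT X y + (NT X y)⁻¹) fun y hy =>
      ((JGx.sm_cont (NT_sm X hy.1)).add
        ((JGx.sm_cont (NT_sm X hy.1)).inv₀ (NT_pos X hy.1).ne')).continuousWithinAt
    refine ⟨M * L, fun γ a z hz (hT : _ ∈ X.T) hr' => ?_⟩
    have h2 := hL ⟨_, ⟨hT, hr'⟩, rfl⟩
    have h3 := NT_pos X hT
    obtain ⟨h4, h5, -⟩ := h1 a z hz (dF (fun w => X.s (C.pt γ a w)) z)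
    rw [← NT_pt X (C.B_mono (by norm_num) a hz) hT] at h4 h5
    have e : ∑ I, X.Q a I z = (∑ I, ‖dF (fun w => X.s (C.pt γ a w)) z (eb I)‖ ^ 2) *
        X.Hb (X.s (C.pt γ a z)) := by
      rw [Finset.sum_mul]
      refine Finset.sum_congr rfl fun I _ => ?_
      rw [(X.tube_Q γ a I z (C.B_mono (by norm_num) a hz) hT).1, dF_apply]
      rfl
    have h6 := X.Hb_psh.1 _ (X.mem _ hT)
    have h7 := inv_pos.2 h3
    dsimp only at h2
    change ∑ I, X.Q a I z ≤ _ * X.Hb (X.s (C.pt γ a z)) ∧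
      X.Hb (X.s (C.pt γ a z)) ≤ _ * ∑ I, X.Q a I z
    rw [e, ← mul_assoc]
    set S := ∑ I, ‖dF (fun w => X.s (C.pt γ a w)) z (eb I)‖ ^ 2
    set t := NT X (C.pt γ a z)
    refine ⟨mul_le_mul_of_nonneg_right (h5.trans (mul_le_mul_of_nonneg_left (by linarith)
      (by linarith))) h6, le_mul_of_one_le_left h6 ?_⟩
    calc 1 = t⁻¹ * t := (inv_mul_cancel₀ h3.ne').symm
      _ ≤ L * (M * S) := mul_le_mul (by linarith) h4 h3.le (by linarith)
      _ = _ := by ring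

end Ad

open Ad in
theorem stA : StA := by
  intro n p Γ E _ _ _ _ C X
  obtain ⟨M, hM, h1⟩ := nm_bd p C
  have hK := X.one_le
  have hN : (0 : ℝ) ≤ Fintype.card (Fin p → Fin n) := Nat.cast_nonneg _
  have hP := fun γ a I z (hz : z ∈ X.U a I) => wt_eq X (γ := γ) (Q := fun _ => X.Q)
    (fun _ g a b I J z => X.Q_ch g a b I J z) hz
  have hQ := fun a I z (hz : z ∈ X.U a I) => (X.Q_psh a I).1 z (X.U_sub a I hz)
  have hle : M ≤ M * (Fintype.card (Fin p → Fin n) * X.K + 1) :=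
    le_mul_of_one_le_right (by linarith) (le_add_of_nonneg_left (by positivity))
  refine ⟨{
    NT := NT X
    P := wt X fun _ => X.Q
    W := wt X X.W
    N_sm := fun a I z hz => nm_sm (U4 X hz) (X.θ_an a I z hz)
    N_pos := fun a I z hz => N_pos X hz
    N_ch := fun g a b I J z => N_ch X
    u_an := fun g a b I J z => u_an X
    NT_sm := fun y => NT_sm X
    NT_pos := fun y => NT_pos X
    NT_ch := fun γ a I z hz hT => ?_
    ds_an := fun γ a I z hz hT => ?_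
    P_eq := hP
    W_eq := fun γ a I z hz => wt_eq X X.W_ch hz
    K := M * (Fintype.card (Fin p → Fin n) * X.K + 1)
    one_le := hM.trans hle
    P_le := fun γ a I z hz hz' => ?_
    le_P := fun γ a I z hz hz' => ?_
    θ_le := fun a I z hz hz' v hv => ((h1 a z hz' _).2.2 v hv).trans
      (mul_le_mul_of_nonneg_right hle (N_pos X hz).le)
    pd := pd X }⟩
  · rw [NT_pt X (U4 X hz) hT, ← nm_smul]
    congr 1
    ext v
    exact (dF_apply _ _ v).trans ((X.tube_U γ a I z (X.U_sub a I hz) hT hz).2 v)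
  · exact (analyticAt_pi_iff.1 ((Vale.Agent.P284.H419.K.evA.analyticAt _).comp
      (S1.dF_an (X.sub.hol γ a z hz hT))) I).congr (Eventually.of_forall fun w => dF_apply _ w _)
  · rw [hP γ a I z hz]
    refine (mul_le_mul_of_nonneg_left (h1 a z hz' _).1 (hQ a I z hz)).trans ?_
    rw [mul_left_comm, Finset.mul_sum]
    refine mul_le_mul_of_nonneg_left (((Finset.sum_le_card_nsmul _ _ X.K fun s _ =>
      X.Q_up a I z hz _ (norm_eb s)).trans_eq (nsmul_eq_mul _ _)).trans ?_) (by linarith)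
    exact le_add_of_nonneg_right zero_le_one
  · rw [hP γ a I z hz, Finset.sum_congr rfl fun J _ => X.Q_same a J I z hz, ← Finset.sum_mul,
      mul_comm (X.Q a I z), ← mul_assoc]
    exact mul_le_mul_of_nonneg_right ((h1 a z hz' _).2.1.trans
      (mul_le_mul_of_nonneg_right hle (N_pos X hz).le)) (hQ a I z hz)

end Vale.Agent.P284Y.X4
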