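import Vale.Agent.P284Y.X4.Sk
import Vale.Agent.P284Z.L.S7a
import Vale.Agent.P284Z.L.S7b
import Vale.Agent.P284Z.J.JB

/-!
# P284Y, row X4: the weights on the base
-/

set_option linter.all false

open scoped ContDiff Topology ComplexOrder ComplexConjugate ENNReal Matrix
open Filter Set Function Metric MeasureTheory

noncomputable section

namespace Vale.Agent.P284Y.X4

open Vale.Agent.P272.K Vale.Agent.P284.H608.K Vale.Agent.P284Z Vale.Agent.P284Z.J Vale.Agent.P284Z.L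
  Vale.Agent.P284Y.X Vale.Agent.P284Z.K Real

open S7a (rh rh_pos rh_le rh_tend G'_sm G'_zero G'_one G''_zero G''_bd key sp_nsq sp_fs bd nrm)

namespace BB

section cl
variable {N : ℕ} {P Q : Cm N → ℝ} {t₀ t : Cm N} {R r : ℝ}

/-- a weight which does not vanish identically -/
structure Gw (P : Cm N → ℝ) (t₀ : Cm N) (R : ℝ) : Prop where
  psh : LPsh P (ball t₀ R)
  lc : Lib.Lc volume (fun y => log (P y)) (ball t₀ R)
  ae : ∀ᵐ y, y ∈ ball t₀ R → 0 < P y

theorem gw (h : LPsh P (ball t₀ R)) (hR : 0 < R) (h0 : 0 < P t₀) : Gw P t₀ R :=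
  ⟨h, Lib.lc_log h isOpen_ball (convex_ball _ _).isPreconnected ⟨t₀, mem_ball_self hR, h0⟩,
    h.ae_pos isOpen_ball (convex_ball _ _).isPreconnected (mem_ball_self hR) h0⟩

theorem sub (ht : t ∈ ball t₀ (R / 2)) (hr : r ≤ R / 2) : closedBall t r ⊆ ball t₀ R :=
  closedBall_subset_ball' (by linarith [mem_ball.1 ht])

theorem Gw.ae' (h : Gw P t₀ R) (hB : closedBall t r ⊆ ball t₀ R) :
    ∀ᵐ y, y ∈ closedBall t r → 0 < P y := h.ae.mono fun _ hy hy' => hy (hB hy')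

theorem Gw.sp (h : Gw P t₀ R) (hr : 0 < r) (hr' : r ≤ R / 2) (ht : t ∈ ball t₀ (R / 2)) :
    SP (cl r P) t :=
  have h1 := Lib.cv_smooth hr isOpen_ball h.lc (sub ht hr')
  ⟨h1, (Lib.cv_log_psh hr isOpen_ball h.psh h.lc h.ae fun _ hz => sub hz hr').cHess_psd
    (isOpen_ball.mem_nhds ht) (two h1)⟩

theorem Gw.le (h : Gw P t₀ R) (hr : 0 < r) (hB : closedBall t r ⊆ ball t₀ R) {x : ℝ}
    (hx : ∀ y ∈ closedBall t r, P y ≤ exp x) : cl r P t ≤ x :=
  (Lib.cv_log_le hr (h.lc.ball hB) (h.ae' hB) hx).trans_eq (log_exp x)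

theorem Gw.cmp (h : Gw P t₀ R) (h' : Gw Q t₀ R) (hr : 0 < r) (hB : closedBall t r ⊆ ball t₀ R)
    {α β : ℝ} (hh : ∀ y ∈ closedBall t r, 0 < P y → 0 < Q y → α * log (P y) ≤ log (Q y) + β) :
    α * cl r P t ≤ cl r Q t + β := by
  unfold cl
  rw [← Lib.cv_const_mul, ← Lib.cv_add_const hr (h'.lc.ball hB)]
  refine Lib.cv_mono_ae hr ((h.lc.const_mul α).ball hB) ((h'.lc.ball hB).add (Lib.int_const _ _ _)) ?_
  filter_upwards [h.ae' hB, h'.ae' hB] with y h1 h2 hy using hh y hy (h1 hy) (h2 hy)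

end cl

variable {n p : ℕ} {Γ E : Type} [Group Γ] [TopologicalSpace E] [MulAction Γ E] {C : Cov n Γ E}
  (X : XL C p) (M : ℝ) (j : ℕ) (r : ℝ)

/-- the level of truncation -/
def ee : ℝ := X.c / 2 * log (rh j)

/-- the outer weight -/
def aa : Cm p → ℝ := cl r (wb X (exp (ee X j)))

/-- the logarithmic pole -/
def nu (t : Cm p) : ℝ := X.c / 4 * log (nsq (t - X.t₀) + rh j)

/-- a bound of the pole -/
def SS : ℝ := (X.c / 4 + 1) * (p * X.R ^ 2)

/-- the shift of the inner weight -/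
def C₁ : ℝ := log X.K + log M + SS X + 2

/-- the inner weight, without its strictly positive part -/
def b₀ (t : Cm p) : ℝ := (2 + X.m) * cl r X.Hb t + nu X j t - C₁ X M

/-- the inner weight -/
def b₁ (t : Cm p) : ℝ := b₀ X M j r t + nsq (t - X.t₀)

/-- the weight -/
def ps (l μ : ℝ) (t : Cm p) : ℝ :=
  l * (aa X j r t + G (b₁ X M j r t - aa X j r t)) + μ * cl r X.Hb t

/-- the cut-off -/
def g₀ (Pf : Cm p → ℂ) (t : Cm p) : ℂ := ((deriv G (b₁ X M j r t - aa X j r t) : ℝ) : ℂ) * Pf t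

/-- the bound of the right hand side -/
def La (l : ℝ) (Pf : Cm p → ℂ) (t : Cm p) : ℝ :=
  deriv (deriv G) (b₁ X M j r t - aa X j r t) * ‖Pf t‖ ^ 2 / l

/-- a constant which bounds all the exponents -/
def DD : ℝ := 2 * ((2 + X.m) * log X.K) + 2 * C₁ X M + log X.K + X.c + 1

/-- the scale is small -/
structure Ok (R₁ : ℝ) : Prop where
  one : 1 ≤ M
  pos : 0 < r
  le₁ : r ≤ R₁ / 2
  le₂ : r ≤ X.R / 2
  le₃ : r ≤ exp (log (rh j) / 2)
  shell : ∀ t ∈ ball X.t₀ X.R, R₁ / 2 ≤ ‖t - X.t₀‖ → X.Hb t ^ (1 + X.m) ≤ M * X.Wb t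

theorem K_pos : 0 < X.K := one_pos.trans_le X.one_le

theorem logK : 0 ≤ log X.K := log_nonneg X.one_le

theorem gwH : Gw X.Hb X.t₀ X.R := gw X.Hb_psh X.R_pos X.Hb_pos

theorem gwW : Gw (wb X (exp (ee X j))) X.t₀ X.R :=
  gw (X.Wb_psh.max (X.Hb_psh.const_mul (exp_pos _).le)) X.R_pos
    (lt_max_of_lt_right (mul_pos (exp_pos _) X.Hb_pos))

theorem ee_le : ee X j ≤ 0 :=
  mul_nonpos_of_nonneg_of_nonpos (half_pos X.c_pos).le (log_nonpos (rh_pos j).le (rh_le j))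

theorem n2_pos (t : Cm p) : 0 < nsq (t - X.t₀) + rh j :=
  add_pos_of_nonneg_of_pos (K.nsq_nonneg _) (rh_pos j)

variable {X M j r} {R₁ l μ : ℝ} {t : Cm p} {Pf : Cm p → ℂ}

theorem nu_le (ht : t ∈ ball X.t₀ (X.R / 2)) :
    nu X j t + nsq (t - X.t₀) ≤ SS X ∧ nsq (t - X.t₀) ≤ SS X := by
  have h1 : nsq (t - X.t₀) ≤ p * X.R ^ 2 :=
    (K.nsq_le _).trans (mul_le_mul_of_nonneg_left (pow_le_pow_left₀ (norm_nonneg _)
      (by linarith [mem_ball_iff_norm.1 ht, X.R_pos]) 2) p.cast_nonneg)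
  have h2 : nu X j t ≤ X.c / 4 * (p * X.R ^ 2) := mul_le_mul_of_nonneg_left
    (by linarith [log_le_sub_one_of_pos (n2_pos X j t), rh_le j]) (by linarith [X.c_pos])
  have h3 : 0 ≤ X.c / 4 * (p * X.R ^ 2) := mul_nonneg (by linarith [X.c_pos]) (by positivity)
  unfold SS
  constructor <;> linarith

theorem Ph_le (h : Ok X M j r R₁) (ht : t ∈ ball X.t₀ (X.R / 2)) : cl r X.Hb t ≤ log X.K :=
  (gwH X).le h.pos (sub ht h.le₂) fun y hy =>
    (X.Hb_le y (sub ht h.le₂ hy)).1.trans_eq (exp_log (K_pos X)).symm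

theorem le_Ph (h : Ok X M j r R₁) (ht : t ∈ ball X.t₀ (X.R / 2)) (h0 : 0 < X.Hb t) :
    log (X.Hb t) ≤ cl r X.Hb t :=
  Lib.log_le_cv h.pos isOpen_ball X.Hb_psh (sub ht h.le₂) ((gwH X).lc.ball (sub ht h.le₂))
    ((gwH X).ae' (sub ht h.le₂)) h0

theorem le_aa (h : Ok X M j r R₁) (ht : t ∈ ball X.t₀ (X.R / 2)) :
    cl r X.Hb t + ee X j ≤ aa X j r t := by
  have := (gwH X).cmp (gwW X j) h.pos (sub ht h.le₂) (α := 1) (β := -ee X j) fun y _ h1 _ => by
    have := log_le_log (mul_pos (exp_pos (ee X j)) h1) (le_max_right (X.Wb y) _)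
    rw [log_mul (exp_pos _).ne' h1.ne', log_exp] at this
    unfold wb
    linarith
  unfold aa
  linarith

theorem aa_le (h : Ok X M j r R₁) (ht : t ∈ ball X.t₀ (X.R / 2)) :
    aa X j r t ≤ cl r X.Hb t + log X.K := by
  have := (gwW X j).cmp (gwH X) h.pos (sub ht h.le₂) (α := 1) (β := log X.K) fun y hy h1 h2 => by
    rw [one_mul, ← log_mul h2.ne' (K_pos X).ne', mul_comm]
    exact log_le_log h1 (max_le (X.Hb_le y (sub ht h.le₂ hy)).2 (mul_le_mul_of_nonneg_right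
      ((exp_le_one_iff.2 (ee_le X j)).trans X.one_le) h2.le))
  rwa [one_mul] at this

theorem aa_pole (h : Ok X M j r R₁) (ht : t ∈ ball X.t₀ (X.R / 2)) :
    aa X j r t ≤ 2 * nu X j t + log X.K + X.c := by
  have h0 := n2_pos X j t
  have h1 : log (rh j) ≤ log (nsq (t - X.t₀) + rh j) :=
    log_le_log (rh_pos j) (le_add_of_nonneg_left (K.nsq_nonneg _))
  refine (gwW X j).le h.pos (sub ht h.le₂) fun y hy => max_le ?_ ?_
  · have h2 : ‖t - X.t₀‖ ≤ exp (log (nsq (t - X.t₀) + rh j) / 2) :=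
      norm_le_of_nsq (exp_pos _).le (by
        rw [sq, ← exp_add, add_halves, exp_log h0]
        exact le_add_of_nonneg_right (rh_pos j).le)
    have h3 : r ≤ exp (log (nsq (t - X.t₀) + rh j) / 2) := h.le₃.trans (exp_le_exp.2 (by linarith))
    have h4 : ‖y - X.t₀‖ ≤ exp (log (nsq (t - X.t₀) + rh j) / 2 + 1) := by
      rw [exp_add]
      nlinarith [add_one_le_exp (1 : ℝ), exp_pos (log (nsq (t - X.t₀) + rh j) / 2),
        norm_sub_le_norm_sub_add_norm_sub y t X.t₀, mem_closedBall_iff_norm.1 hy]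
    refine (X.pole y (sub ht h.le₂ hy)).trans ((mul_le_mul_of_nonneg_left
      (rpow_le_rpow (norm_nonneg _) h4 X.c_pos.le) (K_pos X).le).trans_eq ?_)
    rw [← exp_mul, add_right_comm, exp_add _ (log _), exp_log (K_pos X), mul_comm, nu]
    ring_nf
  · rw [add_right_comm, exp_add, exp_log (K_pos X)]
    refine mul_le_mul (exp_le_exp.2 ?_) (X.Hb_le y (sub ht h.le₂ hy)).1
      (X.Hb_psh.1 y (sub ht h.le₂ hy)) (exp_pos _).le
    unfold ee nu
    nlinarith [X.c_pos]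

theorem out (h : Ok X M j r R₁) (ht : t ∈ ball X.t₀ (X.R / 2)) (h1 : R₁ ≤ ‖t - X.t₀‖) :
    b₁ X M j r t - aa X j r t ≤ -2 := by
  have hM := one_pos.trans_le h.one
  have := (gwH X).cmp (gwW X j) h.pos (sub ht h.le₂) (α := 1 + X.m) (β := log M)
    fun y hy h2 h3 => by
      rw [← log_rpow h2, ← log_mul h3.ne' hM.ne', mul_comm]
      refine log_le_log (rpow_pos_of_pos h2 _) ((h.shell y (sub ht h.le₂ hy) ?_).trans
        (mul_le_mul_of_nonneg_left (le_max_left _ _) hM.le))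
      linarith [norm_sub_le_norm_sub_add_norm_sub t y X.t₀, mem_closedBall_iff_norm'.1 hy, h.le₁]
  unfold b₁ b₀ C₁ aa
  linarith [Ph_le h ht, (nu_le (j := j) ht).1]

theorem sp_b₀ (h : Ok X M j r R₁) (ht : t ∈ ball X.t₀ (X.R / 2)) : SP (b₀ X M j r) t :=
  ((((gwH X).sp h.pos h.le₂ ht).const_mul (by linarith [X.m_nonneg])).add
    ((sp_fs X.t₀ t (rh_pos j)).const_mul (by linarith [X.c_pos]))).sub_const _

theorem sp_b₁ (h : Ok X M j r R₁) (ht : t ∈ ball X.t₀ (X.R / 2)) : SP (b₁ X M j r) t :=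
  (sp_b₀ h ht).add (sp_nsq jb X.t₀ t)

theorem sp_aa (h : Ok X M j r R₁) (ht : t ∈ ball X.t₀ (X.R / 2)) : SP (aa X j r) t :=
  (gwW X j).sp h.pos h.le₂ ht

theorem sp_ps (h : Ok X M j r R₁) (ht : t ∈ ball X.t₀ (X.R / 2)) (hl : 0 ≤ l) (hμ : 0 ≤ μ) :
    SP (ps X M j r l μ) t :=
  (((sp_aa h ht).rm (sp_b₁ h ht)).const_mul hl).add (((gwH X).sp h.pos h.le₂ ht).const_mul hμ)

theorem strict (h : Ok X M j r R₁) (ht : t ∈ ball X.t₀ (X.R / 2)) (hl : 0 ≤ l) (hμ : 0 ≤ μ)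
    (h1 : 1 < b₁ X M j r t - aa X j r t) :
    (cHess (ps X M j r l μ) t - (l : ℂ) • (1 : Mx p)).PosSemidef := by
  have h2 := ((sp_b₀ h ht).const_mul hl).add (((gwH X).sp h.pos h.le₂ ht).const_mul hμ)
  have h3 := (sp_nsq jb X.t₀ t).sm
  have h4 : ps X M j r l μ =ᶠ[𝓝 t] fun w => (l * b₀ X M j r w + μ * cl r X.Hb w) +
      l * nsq (w - X.t₀) := by
    filter_upwards [continuousAt_const.eventually_lt ((sp_b₁ h ht).cont.sub (sp_aa h ht).cont) h1]
      with w hw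
    rw [ps, G_id (t := b₁ X M j r w - aa X j r w) hw.le, b₁]
    ring
  rw [C2.cHess_congr h4, C2.cHess_add (two h2.sm) (two (contDiffAt_const.mul h3)),
    C2.cHess_const_mul l (two h3), jb.hess_nsq, add_sub_cancel_right]
  exact h2.psd

theorem est (h : Ok X M j r R₁) (ht : t ∈ ball X.t₀ (X.R / 2)) (hl : 0 ≤ l) (hμ : 0 ≤ μ) :
    ps X M j r l μ t ≤ (l + μ) * DD X M ∧
    -(l * nu X j t) ≤ (l + μ) * DD X M + -ps X M j r l μ t ∧ (0 < X.Hb t →
      -ps X M j r l μ t ≤ -(l * ee X j) + ((l + μ) * DD X M +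
        log (X.Hb t) * -(2 * (2 + X.m) * (l + μ))) ∧
      (b₁ X M j r t - aa X j r t ≤ 1 →
        -ps X M j r l μ t ≤ (l + μ) * DD X M + log (X.Hb t) * -(2 * (2 + X.m) * (l + μ)) ∧
        -(l * nu X j t) ≤ (l + μ) * DD X M + log (X.Hb t) * -(2 * (2 + X.m) * (l + μ)))) := by
  have h1 := Ph_le h ht
  have h2 := le_aa h ht
  have h3 := aa_le h ht
  have h4 := aa_pole h ht
  obtain ⟨h5, h6⟩ := nu_le (j := j) ht
  have h7 := K.nsq_nonneg (t - X.t₀)
  have h8 := logK X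
  have h9 := log_nonneg h.one
  have hc := X.c_pos
  have e1 := mul_le_mul_of_nonneg_left h1 X.m_nonneg
  have e2 := mul_nonneg X.m_nonneg h8
  have eb : b₁ X M j r t = (2 + X.m) * cl r X.Hb t + nu X j t - C₁ X M + nsq (t - X.t₀) := rfl
  have eC : C₁ X M = log X.K + log M + SS X + 2 := rfl
  have eD : DD X M = 2 * ((2 + X.m) * log X.K) + 2 * C₁ X M + log X.K + X.c + 1 := rfl
  have g1 := G_nonneg (b₁ X M j r t - aa X j r t)
  have g2 := le_G (b₁ X M j r t - aa X j r t)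
  have g3 := G_le (t := b₁ X M j r t - aa X j r t) (M := (2 + X.m) * log X.K - aa X j r t)
    (by linarith) (by linarith)
  have g4 := G_le (t := b₁ X M j r t - aa X j r t)
    (M := nu X j t + (2 + X.m) * log X.K + X.c - aa X j r t) (by linarith) (by linarith)
  have lin : ∀ {x x' : ℝ}, x ≤ 0 → x' ≤ 0 → l * x + μ * x' ≤ 0 := fun h h' =>
    add_nonpos (mul_nonpos_of_nonneg_of_nonpos hl h) (mul_nonpos_of_nonneg_of_nonpos hμ h')
  have ep : ps X M j r l μ t = l * (aa X j r t + G (b₁ X M j r t - aa X j r t)) +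
    μ * cl r X.Hb t := rfl
  generalize G (b₁ X M j r t - aa X j r t) = g at *
  refine ⟨?_, ?_, fun h0 => ?_⟩
  · linarith [lin (x := aa X j r t + g - DD X M) (x' := cl r X.Hb t - DD X M)
      (by linarith) (by linarith)]
  · linarith [lin (x := aa X j r t + g - nu X j t - DD X M) (x' := cl r X.Hb t - DD X M)
      (by linarith) (by linarith)]
  have e3 := le_Ph h ht h0
  have e4 := mul_le_mul_of_nonneg_left e3 X.m_nonneg
  have e5 : 2 * (2 + X.m) * log (X.Hb t) - cl r X.Hb t - DD X M ≤ 0 := by linarith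
  refine ⟨?_, fun h' => ⟨?_, ?_⟩⟩
  · linarith [lin (x := 2 * (2 + X.m) * log (X.Hb t) - (aa X j r t + g) + ee X j - DD X M)
      (by linarith) e5]
  · linarith [lin (x := 2 * (2 + X.m) * log (X.Hb t) - (aa X j r t + g) - DD X M)
      (by linarith) e5]
  · linarith [lin (x := 2 * (2 + X.m) * log (X.Hb t) - nu X j t - DD X M)
      (x' := 2 * (2 + X.m) * log (X.Hb t) - DD X M) (by linarith) (by linarith)]

theorem ind (h : Ok X M j r R₁) (ht : t ∈ ball X.t₀ (X.R / 2)) :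
    (ball X.t₀ R₁).indicator (g₀ X M j r Pf) t = g₀ X M j r Pf t ∧
      (ball X.t₀ R₁).indicator (La X M j r l Pf) t = La X M j r l Pf t := by
  by_cases h1 : t ∈ ball X.t₀ R₁
  · exact ⟨indicator_of_mem h1 _, indicator_of_mem h1 _⟩
  · have h2 := out h ht (not_lt.1 fun e => h1 (mem_ball_iff_norm.2 e))
    rw [indicator_of_notMem h1, indicator_of_notMem h1, g₀, La, G'_zero (by linarith),
      G''_zero fun e => by linarith [e.1]]
    simp

theorem ind_ev (h : Ok X M j r R₁) (ht : t ∈ ball X.t₀ (X.R / 2)) :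
    (ball X.t₀ R₁).indicator (g₀ X M j r Pf) =ᶠ[𝓝 t] g₀ X M j r Pf := by
  filter_upwards [isOpen_ball.mem_nhds ht] with w hw using (ind (l := 1) h hw).1

theorem pw_eq : pw n X.t₀ j t = exp (-(4 * (n + 2) / X.c * nu X j t)) := by
  have h : 4 * (n + 2) / X.c * nu X j t = ((n + 2 : ℕ) : ℝ) * log (nsq (t - X.t₀) + rh j) := by
    have := X.c_pos
    unfold nu
    push_cast
    field_simp
  rw [h, exp_neg, ← log_pow, exp_log (pow_pos (n2_pos X j t) _)]
  rfl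

theorem tsup (h : Ok X M j r R₁) (hR : R₁ < X.R / 2)
    (ht : t ∈ tsupport ((ball X.t₀ R₁).indicator (g₀ X M j r Pf))) :
    ∃ t' ∈ closedBall t r, 0 < X.Hb t' ∧
      -(SS X + X.m * log X.K + 2 - ee X j) ≤ log (X.Hb t') := by
  have h1 : t ∈ ball X.t₀ (X.R / 2) := closedBall_subset_ball hR (closure_minimal
    (support_indicator_subset.trans ball_subset_closedBall) isClosed_closedBall ht)
  have h2 : -1 ≤ b₁ X M j r t - aa X j r t := not_lt.1 fun e => by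
    refine (notMem_tsupport_iff_eventuallyEq.2 ((ind_ev h h1).trans ?_)) ht
    filter_upwards [((sp_b₁ h h1).cont.sub (sp_aa h h1).cont).eventually_lt continuousAt_const e]
      with w hw
    rw [g₀, G'_zero (t := b₁ X M j r w - aa X j r w) hw.le]
    simp
  by_contra hc
  have h3 := (gwH X).le h.pos (sub h1 h.le₂) (x := -(SS X + X.m * log X.K + 2 - ee X j))
    fun y hy => (le_or_gt (X.Hb y) 0).elim (fun e => e.trans (exp_pos _).le) fun e =>
      (log_le_iff_le_exp e).1 (not_lt.1 fun e' => hc ⟨y, hy, e, e'.le⟩)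
  have e1 := mul_le_mul_of_nonneg_left (Ph_le h h1) X.m_nonneg
  have : 0 ≤ SS X := (K.nsq_nonneg _).trans (nu_le (j := j) h1).2
  unfold b₁ b₀ C₁ at h2
  linarith [le_aa h h1, (nu_le (j := j) h1).1, logK X, log_nonneg h.one]

theorem far (h : Ok X M j r R₁) (ht : t ∈ ball X.t₀ (X.R / 2)) {x : ℝ} (hx : 0 < x)
    (h1 : x ≤ X.Hb t) (h2 : nsq (t - X.t₀) + rh j <
      exp (4 / X.c * ((2 + X.m) * log x - C₁ X M - log X.K - X.c - 1))) :
    1 < b₁ X M j r t - aa X j r t := by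
  have h3 := mul_lt_mul_of_pos_left ((log_lt_iff_lt_exp (n2_pos X j t)).2 h2)
    (div_pos X.c_pos four_pos)
  rw [← mul_assoc, div_mul_div_cancel₀ four_ne_zero, div_self X.c_pos.ne', one_mul] at h3
  have h4 := mul_le_mul_of_nonneg_left ((log_le_log hx h1).trans (le_Ph h ht (hx.trans_le h1)))
    (add_nonneg zero_le_two X.m_nonneg)
  have h5 := aa_pole h ht
  unfold b₁ b₀
  unfold nu at *
  linarith [K.nsq_nonneg (t - X.t₀)]

theorem meas : Measurable ((ball X.t₀ X.R).indicator X.Hb) := by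
  refine measurable_of_restrict_of_restrict_compl (s := ball X.t₀ X.R) measurableSet_ball ?_ ?_
  · convert (upperSemicontinuousOn_iff_restrict.2 X.Hb_psh.usc).measurable using 1
    exact funext fun y => indicator_of_mem y.2 _
  · convert measurable_const (a := (0 : ℝ)) using 1
    exact funext fun y => indicator_of_notMem y.2 _

theorem G_pos {η : ℝ} (hη : 0 < η) (s : ℝ) (hs : 0 < s) :
    0 < volume ({t | nsq (t - X.t₀) < η ∧ X.Hb X.t₀ / 2 ≤ X.Hb t} ∩ ball X.t₀ s) := by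
  refine pos_iff_ne_zero.2 fun h => (half_lt_self X.Hb_pos).not_ge (X.Hb_psh.le_of_ae volume
    (ball_mem_nhds _ X.R_pos) ⟨{t | nsq (t - X.t₀) < η} ∩ ball X.t₀ s, inter_mem
      ((K.sm_nsq X.t₀).continuous.continuousAt.eventually_lt continuousAt_const (by simpa [nsq]))
      (ball_mem_nhds _ hs), ?_⟩)
  filter_upwards [measure_eq_zero_iff_ae_notMem.1 h] with y h1 h2
  exact le_of_not_ge fun e => h1 ⟨⟨h2.1, e⟩, h2.2⟩

end BB

open BB in
theorem stB : StB := fun n p Γ E _ _ _ C X => by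
  have hc := X.c_pos
  obtain ⟨l, hl, el⟩ : ∃ l : ℝ, 0 < l ∧ l = 4 * (n + 2) / X.c := ⟨_, by positivity, rfl⟩
  obtain ⟨μ, eN⟩ : ∃ μ : ℝ, l + μ = ⌈l⌉₊ := ⟨_, add_sub_cancel _ _⟩
  have hμ : 0 ≤ μ := by linarith [Nat.le_ceil l]
  refine ⟨⌈l⌉₊, l, μ, Nat.ceil_pos.2 hl, hl.le, hμ, eN, fun Pf hP => ?_⟩
  have hκ : 0 < 2 * (2 + X.m) * (l + μ) := mul_pos (by linarith [X.m_nonneg]) (by linarith)
  obtain ⟨r₀, hr₀, hsk⟩ := X.sk _ hκ
  obtain ⟨R₁, a1, a2, a3⟩ : ∃ R₁ : ℝ, 0 < R₁ ∧ 2 * R₁ ≤ r₀ ∧ 2 * R₁ < X.R / 2 :=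
    ⟨min (r₀ / 2) (X.R / 8), lt_min (half_pos hr₀) (by linarith [X.R_pos]),
      by linarith [min_le_left (r₀ / 2) (X.R / 8)],
      by linarith [min_le_right (r₀ / 2) (X.R / 8), X.R_pos]⟩
  obtain ⟨M', hM'⟩ := X.shell _ (half_pos a1)
  obtain ⟨M, hM, hsh⟩ : ∃ M : ℝ, 1 ≤ M ∧ ∀ t ∈ ball X.t₀ X.R, R₁ / 2 ≤ ‖t - X.t₀‖ →
      X.Hb t ^ (1 + X.m) ≤ M * X.Wb t := ⟨max 1 M', le_max_left _ _, fun t h1 h2 =>
    (hM' t h1 h2).trans (mul_le_mul_of_nonneg_right (le_max_right _ _) (X.Wb_psh.1 t h1))⟩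
  obtain ⟨P, hP₀⟩ := (isCompact_closedBall X.t₀ (X.R / 2)).exists_bound_of_continuousOn
    hP.continuous.continuousOn
  obtain ⟨A, hA, hA'⟩ := G''_bd
  obtain ⟨A₀, h1, h2, h3⟩ : ∃ A₀ : ℝ, 1 ≤ A₀ ∧ P ^ 2 ≤ A₀ ∧ A * P ^ 2 / l ≤ A₀ :=
    ⟨max 1 (max _ _), le_max_left _ _, le_max_of_le_right (le_max_left _ _),
      le_max_of_le_right (le_max_right _ _)⟩
  have h0 := zero_le_one.trans h1
  obtain ⟨η, hη, eη⟩ : ∃ η : ℝ, 0 < η ∧ η = exp (4 / X.c * ((2 + X.m) * log (X.Hb X.t₀ / 2) -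
    C₁ X M - log X.K - X.c - 1)) := ⟨_, exp_pos _, rfl⟩
  have s1 : ball X.t₀ (2 * R₁) ⊆ ball X.t₀ (X.R / 2) := ball_subset_ball a3.le
  have s2 : ball X.t₀ (X.R / 2) ⊆ ball X.t₀ X.R := ball_subset_ball (half_le_self X.R_pos.le)
  set B := A₀ * exp ((l + μ) * DD X M) with eB
  set mj : Cm p → ℝ≥0∞ := fun t => (ENNReal.ofReal B + 1) *
    ENNReal.ofReal ((ball X.t₀ X.R).indicator X.Hb t) ^ (-(2 * (2 + X.m) * (l + μ))) with emj
  have lq : ∀ t ∈ ball X.t₀ (2 * R₁), ∀ x : ℝ, (0 < X.Hb t →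
      x ≤ B * exp (log (X.Hb t) * -(2 * (2 + X.m) * (l + μ)))) → ENNReal.ofReal x ≤ mj t :=
    fun t ht x h => by
      simp only [emj, indicator_of_mem (s2 (s1 ht))]
      exact S7b.le_q hκ (X.Hb_psh.1 t (s2 (s1 ht))) fun e => by rw [rpow_def_of_pos e]; exact h e
  refine ⟨⟨0, 0, B, l, hl, R₁, 2 * R₁, X.R / 2, a1, lt_two_mul_self a1, a3, half_lt_self X.R_pos,
    fun _ _ => 0, fun _ _ => ENNReal.zero_lt_top, mj, (meas.ennreal_ofReal.pow_const _).const_mul _,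
    ?_, _, G_pos (half_pos hη)⟩, ?_⟩
  · rw [emj, lintegral_const_mul' _ _ (by simp), setLIntegral_congr_fun measurableSet_ball
      fun t ht => by rw [indicator_of_mem (s2 (s1 ht))]]
    exact ENNReal.mul_lt_top (by simp) ((lintegral_mono_set (ball_subset_ball a2)).trans_lt hsk)
  filter_upwards [rh_tend.eventually (gt_mem_nhds (half_pos hη))] with j hj
  refine ⟨exp (-(l * ee X j)), exp (ee X j), SS X + X.m * log X.K + 2 - ee X j, (exp_pos _).le,
    exp_pos _, exp_le_one_iff.2 (ee_le X j), ?_⟩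
  filter_upwards [self_mem_nhdsWithin, nhdsWithin_le_nhds (ge_mem_nhds (half_pos a1)),
    nhdsWithin_le_nhds (ge_mem_nhds (half_pos X.R_pos)),
    nhdsWithin_le_nhds (ge_mem_nhds (exp_pos (log (rh j) / 2)))] with r b1 b2 b3 b4
  have h : Ok X M j r R₁ := ⟨hM, b1, b2, b3, b4, hsh⟩
  have han : ∀ t, AnalyticAt ℂ Pf t := fun t =>
    P268.analyticAt_of_differentiableOn isOpen_univ hP.differentiableOn (mem_univ _)
  have hg : ∀ t ∈ ball X.t₀ (X.R / 2), ‖g₀ X M j r Pf t‖ ^ 2 ≤ A₀ := fun t ht =>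
    (nrm (abs_le.2 ⟨by linarith [G'_nonneg (b₁ X M j r t - aa X j r t)], G'_le _⟩)
      (hP₀ t (ball_subset_closedBall ht))).trans h2
  refine ⟨ps X M j r l μ, (ball X.t₀ R₁).indicator (g₀ X M j r Pf),
    (ball X.t₀ R₁).indicator (La X M j r l Pf), ⟨fun t ht => (sp_ps h ht hl.le hμ).sm,
    fun t ht => (sp_ps h ht hl.le hμ).psd, fun t ht => ((C2.contDiffAt_ofReal
      (G'_sm.contDiffAt.comp t ((sp_b₁ h ht).sm.sub (sp_aa h ht).sm))).mul
      (an_sm (han t))).congr_of_eventuallyEq (ind_ev h ht), indicator_nonneg fun y _ =>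
      div_nonneg (mul_nonneg (G''_nonneg _) (sq_nonneg _)) hl.le, fun t ht => ?_,
    fun t ht => ⟨indicator_of_notMem (fun e => (mem_ball_iff_norm.1 e).not_ge ht) _,
      indicator_of_notMem (fun e => (mem_ball_iff_norm.1 e).not_ge ht) _⟩,
    fun t ht => lq t ht _ fun h4 => ?_, fun t ht => lq t ht _ fun h4 => ?_, fun t ht => ?_,
    fun t ht => ?_, fun t ht ht' => strict h (s1 ht') hl.le hμ
      (far h (s1 ht') (half_pos X.Hb_pos) ht.2 (by linarith [ht.1]))⟩,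
    fun t ht h4 => ?_, fun t ht => ?_, fun t ht => tsup h (by linarith) ht⟩
  · have e1 : ∀ k, dzb k ((ball X.t₀ R₁).indicator (g₀ X M j r Pf)) t = _ := fun k =>
      C2.dzb_congr k (ind_ev h ht)
    rw [(ind h ht).2]
    simp only [bb, e1]
    exact key hl (sp_aa h ht) (sp_b₁ h ht) (((gwH X).sp h.pos h.le₂ ht).const_mul hμ) (han t)
  · rw [(ind h (s1 ht)).2, La]
    rcases le_or_gt (b₁ X M j r t - aa X j r t) 1 with h5 | h5
    · exact bd ((div_le_div_of_nonneg_right (mul_le_mul (hA' _) (pow_le_pow_left₀ (norm_nonneg _)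
        (hP₀ t (ball_subset_closedBall (s1 ht))) 2) (sq_nonneg _) hA) hl.le).trans h3) h0
        (((est h (s1 ht) hl.le hμ).2.2 h4).2 h5).1
    · rw [G''_zero fun e => e.2.not_gt h5, zero_mul, zero_div, zero_mul]
      positivity
  · rw [(ind (l := l) h (s1 ht)).1, g₀, pw_eq, ← el]
    rcases le_or_gt (b₁ X M j r t - aa X j r t) 1 with h5 | h5
    · refine bd ?_ h0 (((est h (s1 ht) hl.le hμ).2.2 h4).2 h5).2
      rw [← sub_one_mul, ← Complex.ofReal_one, ← Complex.ofReal_sub]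
      exact (nrm (abs_le.2 ⟨by linarith [G'_nonneg (b₁ X M j r t - aa X j r t)],
        by linarith [G'_le (b₁ X M j r t - aa X j r t)]⟩)
        (hP₀ t (ball_subset_closedBall (s1 ht)))).trans h2
    · rw [G'_one h5.le, Complex.ofReal_one, one_mul, sub_self, norm_zero, zero_pow two_ne_zero,
        zero_mul]
      positivity
  · have h4 := lq t ht (‖g₀ X M j r Pf t‖ ^ 2 * exp (-ps X M j r l μ t + l * ee X j)) fun h4 =>
      bd (hg t (s1 ht)) h0 (by linarith [((est h (s1 ht) hl.le hμ).2.2 h4).1])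
    refine le_trans (le_of_eq ?_) (mul_le_mul_right h4 _)
    rw [(ind (l := l) h (s1 ht)).1, ← ENNReal.ofReal_mul (exp_pos _).le, mul_left_comm, ← exp_add]
    ring_nf
  · rw [pw_eq, ← el]
    exact (one_mul _).symm.trans_le (bd h1 h0 (est h (s1 ht) hl.le hμ).2.1)
  · rw [ps, G_zero (by linarith [out h ht h4]), add_zero, aa]
  · exact (est h ht hl.le hμ).1.trans (((le_add_of_nonneg_right zero_le_one).trans
      (add_one_le_exp _)).trans (le_mul_of_one_le_left (exp_pos _).le h1))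

end Vale.Agent.P284Y.X4
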