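import Vale.Agent.P284Y.X4.Sk
import Vale.Agent.P284Z.F0.Three
import Vale.Agent.P284Z.K.Glue

/-!
# P284Y, row X4: doubling estimates and the bracket for the convolution
-/

open scoped ContDiff Topology ComplexOrder
open Filter Set Function Metric MeasureTheory Real

noncomputable section

namespace Vale.Agent.P284Y.X4

open Vale.Agent.P272.K Vale.Agent.P284Z Vale.Agent.P284Z.K Vale.Agent.P284Y.Lib

variable {N : ℕ} {P : Cm N → ℝ} {U K : Set (Cm N)} {z z₀ : Cm N} {R M m r r₁ c : ℝ}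

theorem geo_log {a b l : ℝ} (ha : 0 < a) (hb : a < b) (hl : 0 < l) :
    a ^ (1 - log l / log (b / a)) * b ^ (log l / log (b / a)) = l * a := by
  have h1 : 1 < b / a := (one_lt_div ha).2 hb
  rw [geo_eq ha (ha.trans hb).le, rpow_def_of_pos (one_pos.trans h1),
    mul_div_cancel₀ _ (log_pos h1).ne', exp_log hl, mul_comm]

/-- a lower bound at the scale `r₁` gives lower bounds and doubling at the smaller scales -/
theorem low (h : LPsh P U) (hB : closedBall z R ⊆ U) (hM : ∀ w ∈ closedBall z R, P w ≤ M)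
    (hm : 0 < m) (h0 : z₀ ∈ closedBall z r₁) (hz₀ : m ≤ P z₀) (hr : 0 < r) (hr₁ : r ≤ r₁)
    (hR : r₁ < R) (hc0 : 0 ≤ c) (hc : M / m ≤ (R / r₁) ^ c) :
    ∃ z' ∈ closedBall z r, M * (r / R) ^ c ≤ P z' ∧
      ∀ l, 1 ≤ l → l * r ≤ R → ∀ w ∈ closedBall z (l * r), P w ≤ l ^ c * P z' := by
  have hrR := hr₁.trans_lt hR
  have hR0 := hr.trans hrR
  have h1 := hr.trans_le hr₁
  have sub := closedBall_subset_closedBall (x := z) hrR.le
  have M0 := hm.trans_le (hz₀.trans (hM _ (closedBall_subset_closedBall hR.le h0)))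
  obtain ⟨z', k1, k2⟩ := (h.usc.mono (sub.trans hB)).exists_isMaxOn
    ⟨z, mem_closedBall_self hr.le⟩ (isCompact_closedBall z r)
  have hL := log_pos ((one_lt_div hr).2 hrR)
  have mem : ∀ l, 1 ≤ l → l * r ≤ R → log l / log (R / r) ∈ Icc (0 : ℝ) 1 := fun l hl hl' =>
    ⟨div_nonneg (log_nonneg hl) hL.le, (div_le_one hL).2
      (log_le_log (one_pos.trans_le hl) ((le_div_iff₀ hr).2 hl'))⟩
  have e1 : M * (r / R) ^ c = exp (log M - c * log (R / r)) := by
    rw [rpow_def_of_pos (div_pos hr hR0), exp_sub, exp_log M0, ← inv_div R r, log_inv, neg_mul,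
      exp_neg, mul_comm c, div_eq_mul_inv M]
  have key : M * (r / R) ^ c ≤ P z' := by
    refine le_of_not_gt fun hlt => ?_
    obtain ⟨A, a1, a2⟩ := exists_between (max_lt hlt (show 0 < M * (r / R) ^ c by positivity))
    have A0 := (le_max_right _ _).trans_lt a1
    have a3 : log A < log M - c * log (R / r) := (log_lt_iff_lt_exp A0).2 (e1 ▸ a2)
    have a4 : A ≤ M := (log_le_log_iff A0 M0).1 (by nlinarith [mul_nonneg hc0 hL.le])
    have a5 : 1 ≤ r₁ / r := (one_le_div hr).2 hr₁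
    have a6 : r₁ / r * r = r₁ := div_mul_cancel₀ _ hr.ne'
    have a7 := h.three hB hr hrR.le A0 a4 (fun y hy => (k2 hy).trans
      ((le_max_left _ _).trans a1.le)) hM (mem _ a5 (a6.trans_le hR.le))
      (y := z₀) (by rwa [geo_log hr hrR (one_pos.trans_le a5), a6])
    set s := log (r₁ / r) / log (R / r) with hs
    have a8 : (1 - s) * log (R / r) = log (R / r₁) := by
      rw [sub_mul, one_mul, hs, div_mul_cancel₀ _ hL.ne', log_div hR0.ne' hr.ne',
        log_div h1.ne' hr.ne', log_div hR0.ne' h1.ne']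
      ring
    have a9 : 0 < 1 - s := (mul_pos_iff_of_pos_right hL).1 (a8 ▸ log_pos ((one_lt_div h1).2 hR))
    have b1 := log_le_log (div_pos M0 hm) hc
    rw [log_div M0.ne' hm.ne', log_rpow (div_pos hR0 h1), ← a8] at b1
    have b2 := log_le_log hm (hz₀.trans a7)
    rw [log_mul (rpow_pos_of_pos A0 _).ne' (rpow_pos_of_pos M0 _).ne', log_rpow A0,
      log_rpow M0] at b2
    nlinarith [mul_lt_mul_of_pos_left a3 a9]
  refine ⟨z', k1, key, fun l hl hl' w hw => ?_⟩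
  have A0 : 0 < P z' := lt_of_lt_of_le (by positivity) key
  have l0 := one_pos.trans_le hl
  refine (h.three hB hr hrR.le A0 (hM _ (sub k1)) (fun y hy => k2 hy) hM (mem l hl hl') (y := w)
    (by rwa [geo_log hr hrR l0])).trans ?_
  rw [geo_eq A0 M0.le, mul_comm]
  refine mul_le_mul_of_nonneg_right ?_ A0.le
  have b1 : log (M / P z') ≤ c * log (R / r) := by
    rw [log_div M0.ne' A0.ne']
    linarith [(le_log_iff_exp_le A0).2 (e1 ▸ key)]
  rw [rpow_def_of_pos (div_pos M0 A0), rpow_def_of_pos l0]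
  refine exp_le_exp.2 ((mul_le_mul_of_nonneg_right b1 (mem l hl hl').1).trans_eq ?_)
  field_simp

/-- uniform doubling on a compact set -/
theorem uni (h : LPsh P U) (hU : IsOpen U) (h0 : ∀ᵐ w, w ∈ U → 0 < P w) (hK : IsCompact K)
    (hKU : K ⊆ U) : ∃ c R M : ℝ, 0 ≤ c ∧ 0 < R ∧ 0 < M ∧ ∀ z ∈ K, closedBall z R ⊆ U ∧
      (∀ w ∈ closedBall z R, P w ≤ M) ∧ ∀ r, 0 < r → r ≤ R / 2 → ∃ z' ∈ closedBall z r, 0 < P z' ∧
        ∀ l, 1 ≤ l → l * r ≤ R → ∀ w ∈ closedBall z (l * r), P w ≤ l ^ c * P z' := by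
  obtain ⟨R, R0, hR⟩ := hK.exists_cthickening_subset_open hU hKU
  obtain ⟨M, M0, hM⟩ := usc_bdd h.usc hK.cthickening hR
  have h1 : ∀ᶠ m in 𝓝 (0 : ℝ), ∀ z ∈ K, ∃ w ∈ closedBall z (R / 2), m ≤ P w := by
    refine hK.eventually_forall_of_forall_eventually fun z hz => ?_
    obtain ⟨w, w1, w2⟩ := exists_of_ae (inter_mem (ball_mem_nhds z (half_pos R0))
      (hU.mem_nhds (hKU hz))) (h0.mono fun w hw hw' => hw hw'.2)
    refine ((continuousAt_fst.eventually (ge_mem_nhds w2)).and (continuousAt_snd.eventually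
      (isOpen_ball.mem_nhds (mem_ball_comm.1 w1.1)))).mono fun q hq => ⟨w, ?_, hq.1⟩
    exact ball_subset_closedBall (mem_ball_comm.1 hq.2)
  obtain ⟨m, ⟨m1, m2⟩, m0⟩ := (((h1.and (ge_mem_nhds M0)).filter_mono
    (nhdsWithin_le_nhds (s := Ioi 0))).and self_mem_nhdsWithin).exists
  have m0 : 0 < m := m0
  have c0 : 0 ≤ log (M / m) / log 2 :=
    div_nonneg (log_nonneg ((one_le_div m0).2 m2)) (log_nonneg one_le_two)
  refine ⟨log (M / m) / log 2, R, M, c0, R0, M0, fun z hz => ?_⟩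
  have sub := closedBall_subset_cthickening hz R
  refine ⟨sub.trans hR, fun w hw => hM w (sub hw), fun r r0 hr => ?_⟩
  obtain ⟨w, w1, w2⟩ := m1 z hz
  obtain ⟨z', k1, k2, k3⟩ := low h (sub.trans hR) (fun w hw => hM w (sub hw)) m0 w1 w2 r0 hr
    (half_lt_self R0) c0 (by
      rw [show R / (R / 2) = 2 by field_simp, rpow_def_of_pos two_pos,
        mul_div_cancel₀ _ (log_pos one_lt_two).ne', exp_log (div_pos M0 m0)])
  exact ⟨z', k1, lt_of_lt_of_le (by positivity) k2, k3⟩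

theorem sp_cl (hU : IsOpen U) (h : LPsh P U) (hr : 0 < r) (hB : closedBall z r ⊆ U)
    (h0 : ∃ w ∈ closedBall z r, 0 < P w) : SP (cl r P) z := by
  obtain ⟨h1, O, h2, h3⟩ := cv_log_levi (μ := volume) hU h hr hB h0
  exact ⟨h1, h3.cHess_psd h2 (two h1)⟩

theorem int_log (hU : IsOpen U) (h : LPsh P U) (hr : 0 < r) (hB : closedBall z r ⊆ U)
    (h0 : ∃ w ∈ closedBall z r, 0 < P w) :
    IntegrableOn (fun w => log (P w)) (closedBall z r) ∧ ∀ᵐ w, w ∈ closedBall z r → 0 < P w := by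
  obtain ⟨R, h1, -, h2, h3⟩ := exists_good (μ := volume) hU h hr hB h0
  exact ⟨h2.ball (closedBall_subset_ball h1),
    h3.mono fun w hw hw' => hw (closedBall_subset_ball h1 hw')⟩

/-- the bracket -/
theorem brk (N : ℕ) : ∃ A : ℝ, 1 ≤ A ∧ ∀ (P : Cm N → ℝ) (U : Set (Cm N)) (z z₁ : Cm N) (r v d : ℝ),
    IsOpen U → LPsh P U → 0 < r → closedBall z (3 * r) ⊆ U → ‖z₁ - z‖ ≤ r → exp (v - d) ≤ P z₁ →
    (∀ w ∈ closedBall z (3 * r), P w ≤ exp (v + d)) → SP (cl r P) z ∧ |cl r P z - v| ≤ A * d := by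
  have c0 : 0 ≤ cvC (volume : Measure (Cm N)) * 2 ^ Module.finrank ℝ (Cm N) :=
    mul_nonneg cvC_pos.le (by positivity)
  refine ⟨1 + 2 * (cvC (volume : Measure (Cm N)) * 2 ^ Module.finrank ℝ (Cm N)), by linarith,
    fun P U z z₁ r v d hU h hr hB h1 h2 h3 => ?_⟩
  have s1 : closedBall z r ⊆ closedBall z (3 * r) := closedBall_subset_closedBall (by linarith)
  have m1 : z₁ ∈ closedBall z r := mem_closedBall_iff_norm.2 h1
  have s2 : closedBall z₁ (2 * r) ⊆ closedBall z (3 * r) :=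
    closedBall_subset_closedBall' (by linarith [mem_closedBall.1 m1])
  have p1 := (exp_pos _).trans_le h2
  have d0 : 0 ≤ d := by linarith [exp_le_exp.1 (h2.trans (h3 _ (s1 m1)))]
  obtain ⟨i1, i2⟩ := int_log hU h hr (s1.trans hB) ⟨z₁, m1, p1⟩
  have a := cv_log_le hr i1 i2 fun w hw => h3 w (s1 hw)
  have b := harnack_log' (μ := volume) (z := z) hr (R := 2 * r)
    (by linarith [mem_closedBall'.1 m1]) hU h (s2.trans hB)
    (fun w hw => h3 w (s2 (ball_subset_closedBall hw))) p1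
  rw [log_exp] at a b
  rw [mul_div_cancel_right₀ _ hr.ne'] at b
  have e : v + d - log (P z₁) ≤ 2 * d := by linarith [(le_log_iff_exp_le p1).2 h2]
  refine ⟨sp_cl hU h hr (s1.trans hB) ⟨z₁, m1, p1⟩, abs_le.2 ⟨?_, ?_⟩⟩
  · change _ ≤ cv volume r (fun w => log (P w)) z - v
    nlinarith [mul_le_mul_of_nonneg_left e c0]
  · change cv volume r (fun w => log (P w)) z - v ≤ _
    nlinarith [mul_nonneg c0 d0]

end Vale.Agent.P284Y.X4
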