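import Vale.Agent.P284Y.X4.Dbl
import Vale.Agent.P284Z.J.Main
import Vale.Agent.P284Z.L.S5a

/-!
# P284Y, row X4: the assembly
-/

set_option linter.all false

open scoped ContDiff Topology ComplexOrder ENNReal
open Filter Set Function Metric MeasureTheory Real

noncomputable section

namespace Vale.Agent.P284Y.X4

open Vale.Agent.P272.K Vale.Agent.P284Z Vale.Agent.P284Z.J Vale.Agent.P284Z.L Vale.Agent.P284Z.K
  Vale.Agent.P284Y.X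

namespace Fa

variable {n p : ℕ} {Γ E : Type} [Group Γ] [TopologicalSpace E] [MulAction Γ E] {C : Cov n Γ E}
  {X : XL C p} {γ : Γ} {a : C.I} {z : Cm n} {y : E}

theorem B24 (h : z ∈ C.B 2 a) : z ∈ C.B 4 a := C.B_mono (by norm_num) a h

theorem cont {f : E → ℝ} (h : C.SmAt f y) : ContinuousAt f y := by
  obtain ⟨γ, a, z, hz, rfl⟩ := C.exists_pt y
  rw [ContinuousAt, ← C.map_pt' (C.B14 hz), tendsto_map'_iff]
  exact (h γ a z (C.B14 hz) rfl).continuousAt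

theorem sp_ρ (hz : z ∈ C.B 4 a) : SP (C.ρ a) z := ⟨C.ρ_sm a z hz, (C.ρ_pos a z hz).posSemidef⟩

/-! ### the weight of one stage -/

theorem Cu.sp {B : Bn C p} {A k : ℝ} {f : E → ℝ} {I} (hz : z ∈ B.U a I)
    (h : Cu B A k f (C.pt γ a z)) :
    SP (fun w => A * C.ρ a w + (f (C.pt γ a w) - k * log (B.N a I w))) z :=
  have h4 := B24 (B.U_sub a I hz)
  ⟨(contDiffAt_const.mul (C.ρ_sm a z h4)).add ((h.sm γ a z h4 rfl).sub
    (contDiffAt_const.mul ((B.N_sm a I z hz).log (B.N_pos a I z hz).ne'))), h.psd γ a I z hz rfl⟩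

theorem psi [T2Space E] (B : Bn C p) {f g : E → ℝ} {fb gb ψb : Cm p → ℝ}
    {l μ k A e m m' M R₁ R₃ : ℝ} {L : Set E} (l0 : 0 ≤ l) (μ0 : 0 ≤ μ) (hk : l + μ = k)
    (A0 : 0 ≤ A) (he : k * A ≤ e) (h13 : R₁ < R₃) (h3 : R₃ < B.R)
    (hf : ∀ y ∈ L, Cu B A 1 f y ∧ f y ≤ m)
    (hf' : ∀ y ∈ B.T, B.s y ∈ ball B.t₀ R₃ → f y = fb (B.s y) + log (B.NT y))
    (hg : ∀ y ∈ L, Cu B A 1 g y ∧ g y ≤ m)
    (hg' : ∀ y ∈ B.T, B.s y ∈ ball B.t₀ R₃ → g y = gb (B.s y) + log (B.NT y))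
    (sp : ∀ t ∈ ball B.t₀ R₃, SP ψb t ∧ ψb t ≤ m')
    (out : ∀ t ∈ ball B.t₀ R₃, R₁ ≤ ‖t - B.t₀‖ → ψb t = l * fb t + μ * gb t)
    (hM : ∀ y ∈ B.T, ‖B.s y - B.t₀‖ ≤ R₃ → log (B.NT y) ≤ M) :
    ∃ ψ : E → ℝ, (∀ y ∈ B.T, B.s y ∈ ball B.t₀ R₃ → ψ y = ψb (B.s y) + k * log (B.NT y)) ∧
      (∀ y ∈ L, ψ y ≤ max (k * m) (m' + k * M)) ∧ ∀ γ a I, ∀ z ∈ B.U a I, C.pt γ a z ∈ L →
        SP (fun w => e * C.ρ a w + (ψ (C.pt γ a w) - k * log (B.N a I w))) z := by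
  classical
  have k0 : 0 ≤ k := by linarith
  refine ⟨fun y => if y ∈ B.T ∧ B.s y ∈ ball B.t₀ R₃ then ψb (B.s y) + k * log (B.NT y)
    else l * f y + μ * g y, fun y h1 h2 => if_pos ⟨h1, h2⟩, fun y hy => ?_, fun γ a I z hz hL => ?_⟩
  · beta_reduce
    split_ifs with o
    · exact le_max_of_le_right (add_le_add (sp _ o.2).2
        (mul_le_mul_of_nonneg_left (hM y o.1 (mem_ball_iff_norm.1 o.2).le) k0))
    · refine le_max_of_le_left ?_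
      rw [← hk, add_mul]
      exact add_le_add (mul_le_mul_of_nonneg_left (hf y hy).2 l0)
        (mul_le_mul_of_nonneg_left (hg y hy).2 μ0)
  have h4 := B24 (B.U_sub a I hz)
  have hU := (B.U_opn a I).mem_nhds hz
  by_cases o : C.pt γ a z ∈ B.T ∧ B.s (C.pt γ a z) ∈ ball B.t₀ R₃
  · obtain ⟨u, u1, u2, u3⟩ := B.NT_ch γ a I z hz o.1
    have hs := B.sub.hol γ a z h4 o.1
    refine (((sp_ρ h4).const_mul ((mul_nonneg k0 A0).trans he)).add ((((sp _ o.2).1.comp jb hs)).add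
      ((sp_log jb u1 u2).const_mul k0))).congr ?_
    filter_upwards [hU, u3, u1.continuousAt.eventually_ne u2, (C.continuousAt_pt h4 γ).eventually
      (B.sub.opn.mem_nhds o.1), hs.continuousAt.eventually (isOpen_ball.mem_nhds o.2)]
      with w w1 w2 w3 w4 w5
    rw [if_pos ⟨w4, w5⟩, w2, log_mul (pow_ne_zero _ (norm_ne_zero_iff.2 w3)) (B.N_pos a I w w1).ne']
    ring
  · refine (((sp_ρ h4).const_mul (sub_nonneg.2 he)).add (((Cu.sp hz (hf _ hL).1).const_mul l0).add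
      ((Cu.sp hz (hg _ hL).1).const_mul μ0))).congr ?_
    filter_upwards [(C.continuousAt_pt h4 γ).eventually
      ((B.cpt R₁ (h13.trans h3)).isClosed.isOpen_compl.mem_nhds fun h =>
        o ⟨h.1, mem_ball_iff_norm.2 (h.2.trans_lt h13)⟩)] with w w1
    subst hk
    split_ifs with o'
    · rw [out _ o'.2 (not_le.1 fun h => w1 ⟨o'.1, h⟩).le, hf' _ o'.1 o'.2, hg' _ o'.1 o'.2]
      ring
    · ring

/-! ### the bundle and the two weights -/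

variable (D : AD X)

/-- the Hermitian line bundle of `X` -/
def bn : Bn C p where
  toTu := tu X
  F := Fin p → Fin n
  U := X.U
  N a I w := nm C a w (X.θ a I w)
  NT := D.NT
  U_opn := X.U_opn
  U_sub := X.U_sub
  N_sm := D.N_sm
  N_pos := D.N_pos
  N_ch γ a I γ' b J z hz z' hz' e := by
    obtain ⟨h1, rfl⟩ := C.Ov_of_eq (B24 (X.U_sub a I hz)) (B24 (X.U_sub b J hz')) e
    refine ⟨_, D.u_an _ a b I J z h1 hz', (X.θ_ch _ a b I J z h1 hz hz').1, ?_⟩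
    filter_upwards [C.ev_Ov h1, (X.U_opn a I).mem_nhds hz,
      (C.an_tr h1).continuousAt.eventually ((X.U_opn b J).mem_nhds hz')] with w w1 w2 w3
    rw [C.co_pt_eq]
    exact D.N_ch _ a b I J w w1 w2 w3
  NT_sm := D.NT_sm
  NT_pos := D.NT_pos
  NT_ch γ a I z hz hT := by
    have h2 := X.U_sub a I hz
    refine ⟨_, D.ds_an γ a I z (B24 h2) hT, (X.tube_U γ a I z h2 hT hz).1, ?_⟩
    filter_upwards [(X.U_opn a I).mem_nhds hz,
      (C.continuousAt_pt (B24 h2) γ).eventually (X.sub.opn.mem_nhds hT)] with w w1 w2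
    exact D.NT_ch γ a I w w1 w2

theorem wt₁ : Wt (bn D) D.P X.Hb where
  psh γ a I := ((X.Q_psh a I).mono (X.U_sub a I)).congr fun w hw =>
    (div_eq_iff (D.N_pos a I w hw).ne').2 (D.P_eq γ a I w hw)
  pshb := X.Hb_psh
  tube γ a I z hz hT := by
    change _ = X.Hb (X.s _) * D.NT _
    rw [D.P_eq γ a I z hz, D.NT_ch γ a I z hz hT, (X.tube_Q γ a I z (X.U_sub a I hz) hT).1]
    ring

theorem wt₂ {ε : ℝ} (h : 0 ≤ ε) : Wt (bn D) (fun y => max (D.W y) (ε * D.P y)) (wb X ε) where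
  psh γ a I := (((X.W_psh γ a I).max ((X.Q_psh a I).const_mul h)).mono (X.U_sub a I)).congr
    fun w hw => (div_eq_iff (D.N_pos a I w hw).ne').2 (by
      rw [D.P_eq γ a I w hw, D.W_eq γ a I w hw, max_mul_of_nonneg _ _ (D.N_pos a I w hw).le,
        mul_assoc])
  pshb := X.Wb_psh.max (X.Hb_psh.const_mul h)
  tube γ a I z hz hT := by
    change _ = max (X.Wb (X.s _)) (_ * X.Hb (X.s _)) * D.NT _
    obtain ⟨e1, e2⟩ := X.tube_Q γ a I z (X.U_sub a I hz) hT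
    rw [max_mul_of_nonneg _ _ (D.NT_pos _ hT).le, D.P_eq γ a I z hz, D.W_eq γ a I z hz,
      D.NT_ch γ a I z hz hT, e1, e2]
    congr 1 <;> ring

theorem le₂ {ε : ℝ} (h : ε ≤ 1) {I} (hz : z ∈ X.U a I) (h7 : z ∈ C.B (7 / 4) a) :
    D.P (C.pt γ a z) ≤ X.K * D.K ∧ max (D.W (C.pt γ a z)) (ε * D.P (C.pt γ a z)) ≤ X.K * D.K := by
  have h1 := D.P_le γ a I z hz h7
  have h2 := X.U_sub a I hz
  have h3 := (D.N_pos a I z hz).le
  have h4 : 0 ≤ D.P (C.pt γ a z) := D.P_eq γ a I z hz ▸ mul_nonneg ((X.Q_psh a I).1 z h2) h3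
  have h5 : D.W (C.pt γ a z) ≤ X.K * D.P (C.pt γ a z) := by
    rw [D.P_eq γ a I z hz, D.W_eq γ a I z hz, ← mul_assoc]
    exact mul_le_mul_of_nonneg_right (X.W_le γ a I z h2) h3
  have h6 := X.one_le
  exact ⟨by nlinarith, max_le (by nlinarith) (by nlinarith)⟩

theorem up {I} {k : ℕ} {s M : ℝ} (hz : z ∈ X.U a I) (h7 : z ∈ C.B (7 / 4) a) (hs : s ≤ M)
    {v : Fin p → Cm n} (hv : ‖v‖ ≤ 1) :
    ‖X.θ a I z v‖ ^ (2 * k) * exp (s - k * log (nm C a z (X.θ a I z))) ≤ D.K ^ k * exp M := by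
  have h1 := D.N_pos a I z hz
  rw [exp_sub, exp_nat_mul, exp_log h1, pow_mul, mul_div_left_comm, ← div_pow, mul_comm]
  exact mul_le_mul (pow_le_pow_left₀ (by positivity) ((div_le_iff₀ h1).2
    (D.θ_le a I z hz h7 v hv)) k) (exp_le_exp.2 hs) (exp_pos _).le
    (pow_nonneg (zero_le_one.trans D.one_le) k)

/-! ### the potential -/

section td
variable {U : Tu C p} {P : C.I → Cm n → ℝ} {H : Cm p → ℝ} {R₃ A K r₁ R M c ν : ℝ} {t : E → ℝ}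

theorem dbl (pd : PD U P H) (td : TD U P H R₃ A K r₁ t)
    (hR : ∀ a, ∀ z ∈ C.cB (3 / 2) a, closedBall z R ⊆ C.B (7 / 4) a)
    (hM : ∀ a, ∀ z ∈ C.B 2 a, P a z ≤ M) (h1 : r₁ < R) (c0 : 0 ≤ c)
    (hc : M / exp (-exp ν) ≤ (R / r₁) ^ c) (hz : z ∈ C.cB (3 / 2) a)
    (h : -kap K t (C.pt γ a z) ≤ ν) {r : ℝ} (r0 : 0 < r) (hr : r ≤ r₁) :
    ∃ w ∈ closedBall z r, w ∈ C.B (7 / 4) a ∧ M / R ^ c * r ^ c ≤ P a w := by
  obtain ⟨w, w1, w2, w3⟩ := td.up γ a z hz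
  have s := (hR a z hz).trans (C.B_mono (k' := 2) (by norm_num) a)
  rw [kap, neg_neg, log_le_iff_le_exp (by linarith [td.le (C.pt γ a z)])] at h
  obtain ⟨w', k1, k2, -⟩ := low (pd.psh a) s (fun w hw => hM a w (s hw)) (exp_pos _) w1
    ((le_log_iff_exp_le w2).1 (by linarith)) r0 hr h1 c0 hc
  refine ⟨w', k1, hR a z hz (closedBall_subset_closedBall (hr.trans h1.le) k1), ?_⟩
  rwa [div_rpow r0.le (r0.le.trans (hr.trans h1.le)), mul_div_left_comm, mul_comm] at k2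

theorem kint (pd : PD U P H) (td : TD U P H R₃ A K r₁ t) (γ : Γ) (a : C.I) :
    ∫⁻ z in C.B (3 / 2) a, ‖kap K t (C.pt γ a z)‖ₑ ≤
      ∫⁻ z in C.B (3 / 2) a, ‖2 * K - log (P a z)‖ₑ := by
  refine lintegral_mono_ae ((ae_restrict_iff' (C.isOpen_B _ a).measurableSet).2
    ((pd.pos a).mono fun z h hz => ?_))
  have h1 := td.low γ a z (C.B_sub_cB _ a hz) (h (C.B_mono (by norm_num) a hz))
  have h2 := td.le (C.pt γ a z)
  rw [enorm_le_iff_norm_le, kap, norm_neg, norm_of_nonneg (log_nonneg (by linarith))]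
  exact ((log_le_sub_one_of_pos (by linarith)).trans (by linarith)).trans (le_abs_self _)

theorem kfin (pd : PD U P H) (K : ℝ) (a : C.I) :
    ∫⁻ z in C.B (3 / 2) a, ‖2 * K - log (P a z)‖ₑ < ⊤ :=
  (((integrableOn_const (C.isCompact_cB _ a).measure_ne_top).sub ((pd.psh a).integrableOn_log volume
    (C.isOpen_B 2 a) (C.preconn_B 2 a) (exists_of_ae ((C.isOpen_B 2 a).mem_nhds (C.c_mem two_pos a))
      (pd.pos a)) (C.isCompact_cB (3 / 2) a) (C.cB_sub_B (by norm_num) a))).mono_set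
    (C.B_sub_cB _ a)).2

end td

theorem bdd {f : E → ℝ} (hf : ∀ y ∈ X.T, C.SmAt f y) {r : ℝ} (hr : r < X.R) :
    ∃ M, ∀ y ∈ X.T, ‖X.s y - X.t₀‖ ≤ r → f y ≤ M :=
  ((X.cpt r hr).bddAbove_image fun y hy => (cont (hf y hy.1)).continuousWithinAt).imp
    fun _ h y h1 h2 => h ⟨y, ⟨h1, h2⟩, rfl⟩

theorem ev_c {R c : ℝ} (M : ℝ) (R0 : 0 < R) (c0 : 0 < c) :
    ∀ᶠ r in 𝓝[>] (0 : ℝ), 0 < r ∧ r < R ∧ M ≤ (R / r) ^ c :=
  eventually_mem_nhdsWithin.and (((eventually_lt_nhds R0).filter_mono nhdsWithin_le_nhds).and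
    (((tendsto_rpow_atTop c0).comp (tendsto_inv_nhdsGT_zero.const_mul_atTop R0)).eventually_ge_atTop M))

end Fa

open Fa in
/-- **X4-F** -/
theorem stF : StF := by
  intro hT hM hS hA hB hGeo hGl n p Γ E _ _ _ _ _ _ C X
  borelize E
  obtain ⟨ℓ, hℓ⟩ := st5a n Γ E C (jg C)
  obtain ⟨D⟩ := hA n p Γ E C X
  obtain ⟨k, l, μ, k1, l0, μ0, hk, hB⟩ := hB n p Γ E C X
  refine ⟨k, k1, fun Pf hPf => ?_⟩
  obtain ⟨F, hB⟩ := hB Pf hPf
  have h13 := F.R₁_lt.trans F.R₂_lt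
  have h03 := F.R₁_pos.trans h13
  obtain ⟨A₁, K₁, A0, hT⟩ := hT hGeo hGl n p Γ E C _ _ _ D.pd F.R₃ h03 F.R₃_lt
  obtain ⟨K₂, K0, hM⟩ := hM n Γ E C ℓ hℓ
  obtain ⟨A₂, A2, hS⟩ := hS hGeo hGl n p Γ E C (bn D) F.R₃ h03 F.R₃_lt
  obtain ⟨M₀, hM₀⟩ := bdd (X := X) (f := fun y => log (D.NT y)) (fun y hy γ a z hz e =>
    (D.NT_sm y hy γ a z hz e).log (e ▸ (D.NT_pos y hy).ne')) F.R₃_lt
  obtain ⟨L₀, hL₀⟩ := bdd (X := X) (fun y _ => hℓ.sm y) (h13.trans F.R₃_lt)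
  obtain ⟨c₀, c0, hc₀⟩ := X.small
  obtain ⟨R, R0, hR⟩ : ∃ R > (0 : ℝ), ∀ a, ∀ z ∈ C.cB (3 / 2) a,
      closedBall z R ⊆ C.B (7 / 4) a := by
    obtain ⟨r, r0, hr⟩ := C.exists_r
    exact ⟨r / 8, by positivity, fun a z hz => C.closedBall_sub hz (by linarith [hr a])⟩
  obtain ⟨M₁, M1, hM₁⟩ : ∃ M > (0 : ℝ), ∀ a, ∀ z ∈ C.B 2 a, ∑ I, X.Q a I z ≤ M :=
    ⟨∑ _I : Fin p → Fin n, X.K + 1, add_pos_of_nonneg_of_pos (Finset.sum_nonneg fun _ _ =>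
      zero_le_one.trans X.one_le) one_pos, fun a z hz =>
        (Finset.sum_le_sum fun I _ => X.Q_le a I z hz).trans (le_add_of_nonneg_right zero_le_one)⟩
  refine ⟨{ F with
    A := A₁ + 1
    M := D.K ^ k * exp (max (k * (log (X.K * D.K) + 1)) (F.B + k * M₀))
    Bκ := fun _ a => ∫⁻ z in C.B (3 / 2) a, ‖2 * K₁ - log (∑ I, X.Q a I z)‖ₑ
    Bκ_lt := fun _ a => kfin D.pd K₁ a }, hB.mono ?_⟩
  rintro j ⟨N, ε, Y, N0, ε0, ε1, hB⟩
  refine ⟨N, N0, fun e e0 => ?_⟩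
  obtain ⟨ν, ν1, ν2, ν3⟩ := ((eventually_gt_atTop (L₀ + log (1 + 2 * K₁ + Y))).and
    ((eventually_ge_atTop 1).and (eventually_ge_atTop (K₂ / e)))).exists
  have ν0 := one_pos.trans_le ν2
  have k0 : (0 : ℝ) < k := Nat.cast_pos.2 k1
  obtain ⟨c, c1, c2, c3, c4⟩ : ∃ c > (0 : ℝ), c ≤ c₀ ∧ A₂ * c ≤ 1 ∧ k * (A₂ * c) ≤ e :=
    ⟨min c₀ (min (1 / A₂) (e / (k * A₂))), by positivity, min_le_left _ _,
      (le_div_iff₀' A2).1 ((min_le_right _ _).trans (min_le_left _ _)), mul_assoc _ A₂ _ ▸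
      (le_div_iff₀' (by positivity)).1 ((min_le_right _ _).trans (min_le_right _ _))⟩
  obtain ⟨r₁, ⟨t, td⟩, r1, r2, r3⟩ := (hT.and (ev_c (M₁ / exp (-exp (3 * ν))) R0 c1)).exists
  obtain ⟨m1, m2, m3, m4, m5⟩ := hM A₁ K₁ t A0 td.sm td.psd td.le
  obtain ⟨m5, m6⟩ := m5 ν ν0
  have d : ∀ γ a, ∀ z ∈ C.cB (3 / 2) a, ℓ (C.pt γ a z) - kap K₁ t (C.pt γ a z) ≤ 3 * ν →
      ∀ r, 0 < r → r ≤ r₁ → ∃ w ∈ closedBall z r, w ∈ C.B (7 / 4) a ∧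
        M₁ / R ^ c * r ^ c ≤ ∑ I, X.Q a I w := fun γ a z hz h r =>
    dbl D.pd td hR hM₁ r2 c1.le r3 hz (γ := γ) (by linarith [hℓ.nonneg (C.pt γ a z)])
  have cov : ∀ γ a, ∀ z ∈ C.cB (3 / 2) a, ℓ (C.pt γ a z) - kap K₁ t (C.pt γ a z) ≤ 3 * ν →
      ∃ I, z ∈ X.U a I := fun γ a z hz h =>
    hc₀ a z (C.cB_sub_B (by norm_num) a hz) (SmallAt.mono ⟨_, by positivity, r₁, r1, fun r hr =>
      (d γ a z hz h r hr.1 hr.2).imp fun w hw => ⟨hw.1, hw.2.2⟩⟩ c2)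
  have ev : ∀ᶠ r in 𝓝[>] (0 : ℝ), 0 < r ∧ r ≤ r₁ :=
    eventually_mem_nhdsWithin.and (mem_nhdsWithin_of_mem_nhds (ge_mem_nhds r1))
  have D0 := one_pos.trans_le D.one_le
  have lo : ∀ᶠ r in 𝓝[>] (0 : ℝ), ∀ γ a, ∀ z ∈ C.cB (3 / 2) a,
      ℓ (C.pt γ a z) - kap K₁ t (C.pt γ a z) ≤ 3 * ν → ∃ w ∈ closedBall z r, ∀ I, w ∈ X.U a I →
        M₁ / R ^ c / D.K * r ^ c ≤ D.P (C.pt γ a w) := ev.mono fun r hr γ a z hz h =>
    (d γ a z hz h r hr.1 hr.2).imp fun w hw => ⟨hw.1, fun I hI => by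
      rw [div_mul_eq_mul_div, div_le_iff₀' D0]
      exact hw.2.2.trans (D.le_P γ a I w hI hw.2.1)⟩
  obtain ⟨r, ⟨⟨f, f1, f2⟩, g, g1, g2⟩, ⟨ψb, gb, Λ, bs, bl⟩, -, hr⟩ := (((hS c c1 _ _ _ _ (m3 (3 * ν))
    (wt₂ D ε0.le) cov (fun γ a I z h1 h2 => (le₂ D ε1 h1 h2).2)
    ⟨ε * (M₁ / R ^ c / D.K), by positivity, lo.mono fun r hr γ a z hz h => (hr γ a z hz h).imp
      fun w hw => ⟨hw.1, fun I hI => le_max_of_le_right ((mul_assoc ε _ _).trans_le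
        (mul_le_mul_of_nonneg_left (hw.2 I hI) ε0.le))⟩⟩).and (hS c c1 _ _ _ _ (m3 (3 * ν))
    (wt₁ D) cov (fun γ a I z h1 h2 => (le₂ D ε1 h1 h2).1) ⟨_, by positivity, lo⟩)).and
    (hB.and ev)).exists
  obtain ⟨ψ, ψ1, ψ2, ψ3⟩ := psi (bn D) (m := log (X.K * D.K) + 1) l0 μ0 hk (by positivity) c4 h13
    F.R₃_lt (fun y hy => ⟨(f1 y hy).1, by linarith [(f1 y hy).2]⟩) f2
    (fun y hy => ⟨(g1 y hy).1, by linarith [(g1 y hy).2]⟩) g2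
    (fun t ht => ⟨⟨bs.ψ_sm t ht, bs.ψ_psd t ht⟩, bl.le t ht⟩) bl.out hM₀
  obtain ⟨tb, tb1, tb2⟩ := td.tube
  have sm : ∀ γ a I, ∀ z ∈ X.U a I, ℓ (C.pt γ a z) - kap K₁ t (C.pt γ a z) < 3 * ν →
      ContDiffAt ℝ ∞ (fun w => ψ (C.pt γ a w) - k * log (nm C a w (X.θ a I w))) z :=
    fun γ a I z hz h => ((ψ3 γ a I z hz h.le).sm.sub (contDiffAt_const.mul
      (C.ρ_sm a z (B24 (X.U_sub a I hz))))).congr_of_eventuallyEq
        (.of_forall fun w => (add_sub_cancel_left _ _).symm)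
  have OL : {y | ℓ y - kap K₁ t y < 3 * ν} ⊆ {y | ℓ y - kap K₁ t y ≤ 3 * ν} :=
    fun y (h : ℓ y - kap K₁ t y < 3 * ν) => h.le
  refine ⟨{
    O := {y | ℓ y - kap K₁ t y < 3 * ν}
    O_opn := isOpen_lt m4 continuous_const
    cover := fun γ a z hz h => cov γ a z hz (OL h)
    κ := kap K₁ t
    κ_sm := m1
    κ_ge := m2
    κ_int := kint D.pd td
    κ_tube := ⟨fun τ => -log (1 + K₁ - tb τ), fun τ hτ => ?_, fun y h1 h2 =>
      congrArg (fun x => -log (1 + K₁ - x)) (tb2 y h1 h2)⟩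
    ψ := fun γ a I w => ψ (C.pt γ a w) - k * log (nm C a w (X.θ a I w))
    ψ_sm := sm
    ψ_psd := fun γ a I z hz h => ?_
    ψ_ch := fun γ g a b I J z h1 h2 h3 => ?_
    up := fun γ a I z hz h1 h v hv => up D hz (C.cB_sub_B (by norm_num) a h1) (ψ2 _ (OL h)) hv
    χ := chi ℓ (kap K₁ t) ν
    χ_sm := m5
    χ_nonneg := fun y => smoothTransition.nonneg _
    χ_le := fun y => smoothTransition.le_one _
    χ_supp := ⟨_, m3 (2 * ν), fun y hy => LE.le.trans_lt hy (by linarith : 2 * ν < 3 * ν), fun y hy =>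
      smoothTransition.zero_of_nonpos (sub_nonpos.2 ((le_div_iff₀ ν0).2 (not_le.1 hy).le))⟩
    χ_grad := m6 e ((div_le_iff₀ (by positivity)).2 (((div_le_iff₀' e0).1 ν3).trans
      (mul_le_mul_of_nonneg_left (by nlinarith) e0.le)))
    ψb := ψb
    gb := gb
    Λ := Λ
    bs := ⟨bs.1, bs.2, bs.3, bs.4, bs.5, bs.6, bs.7, bs.8, bs.9, bs.10, bs.11⟩
    ψ_tube := fun γ a I z hz h1 h2 => ?_
    one := fun y hy h => ?_ }⟩
  · obtain ⟨σ, -, -, hσ⟩ := X.sec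
    obtain ⟨-, s1, s2⟩ := hσ τ (ball_subset_ball F.R₃_lt.le hτ)
    have e1 : tb τ ≤ K₁ := ((tb2 _ s1 (mem_of_eq_of_mem s2 hτ)).trans (congrArg tb s2)).ge.trans
      (td.le _)
    exact ((contDiffAt_const.sub (tb1 τ hτ).1).log (by linarith)).neg
  · have h4 := B24 (X.U_sub a I hz)
    have h5 := two (C.ρ_sm a z h4)
    have h6 := (C2.cHess_add (contDiffAt_const.mul h5) (two (sm γ a I z hz h)) ▸
      (ψ3 γ a I z hz (OL h)).psd).add (psd_smul (m2 γ a z h4 trivial) e0.le)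
    simp only [C2.cHess_const_mul e h5, Pi.sub_apply, Cov.om, one_mul, add_zero, smul_sub] at h6
    rwa [add_comm (_ • _), add_add_sub_cancel] at h6
  · rw [C.pt_tr h1, D.N_ch g a b I J z h1 h2 h3, log_mul (pow_ne_zero _ (norm_ne_zero_iff.2
      (X.θ_ch g a b I J z h1 h2 h3).1)) (D.N_pos a I z h2).ne']
    ring
  · rw [ψ1 _ h1 h2]
    change ψb (X.s _) + k * log (D.NT _) - _ = _
    rw [D.NT_ch γ a I z hz h1, log_mul (pow_ne_zero _ (norm_ne_zero_iff.2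
      (X.tube_U γ a I z (X.U_sub a I hz) h1 hz).1)) (D.N_pos a I z hz).ne']
    ring
  · have h1 : ‖X.s y - X.t₀‖ ≤ F.R₁ := mem_closedBall_iff_norm.1 (closure_minimal (fun τ (hτ : gb τ ≠ 0) =>
      mem_closedBall_iff_norm.2 (not_le.1 fun o => hτ (bs.supp τ o).1).le) isClosed_closedBall h)
    have h2 := mem_ball_iff_norm.2 (h1.trans_lt h13)
    obtain ⟨τ, τ1, τ2, τ3⟩ := bl.supp _ h
    have h3 := ((tb1 _ h2).2 τ (closedBall_subset_closedBall hr τ1) τ2).trans (tb2 y hy h2).ge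
    have h4 := log_le_log (x := 1 + K₁ - t y) (y := 1 + 2 * K₁ + Y) (by linarith [td.le y])
      (by linarith)
    refine (m4.continuousAt.eventually_lt continuousAt_const (show ℓ y - kap K₁ t y < ν by
      rw [kap]; linarith [hL₀ y hy h1])).mono fun y' h5 => smoothTransition.one_of_one_le ?_
    linarith [(div_lt_one ν0).2 h5]

end Vale.Agent.P284Y.X4
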