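import Vale.Agent.P284Y.X4.Sk

/-!
# P284Y, row X4: uniform Lipschitz and openness constants
-/

open scoped ContDiff Topology NNReal
open Filter Set Function Metric

noncomputable section

namespace Vale.Agent.P284Y.X4

open Vale.Agent.P272.K Vale.Agent.P284Z Vale.Agent.P284Z.L

namespace GeoA

variable {n p : ℕ} {Γ E : Type} [Group Γ] [TopologicalSpace E] [MulAction Γ E]

theorem ev_ball {V : Type} [NormedAddCommGroup V] {z₀ : V} {t : Set V} (ht : t ∈ 𝓝 z₀) :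
    ∀ᶠ q : ℝ × V in 𝓝 (0, z₀), closedBall q.2 (q.1 ^ 2) ⊆ t := by
  obtain ⟨ε, hε, h⟩ := Metric.mem_nhds_iff.1 ht
  have hc : Continuous fun q : ℝ × V => q.1 ^ 2 + dist q.2 z₀ := by fun_prop
  have h1 : ∀ᶠ q : ℝ × V in 𝓝 (0, z₀), q.1 ^ 2 + dist q.2 z₀ < ε :=
    hc.continuousAt.eventually_lt continuousAt_const (by simpa using hε)
  filter_upwards [h1] with q hq
  exact (closedBall_subset_ball' hq).trans h

theorem ev_small {V : Type} [TopologicalSpace V] (z₀ : V) (K : ℝ) :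
    ∀ᶠ q : ℝ × V in 𝓝 (0, z₀), q.1 * K < 1 := by
  have hc : Continuous fun q : ℝ × V => q.1 * K := by fun_prop
  exact hc.continuousAt.eventually_lt continuousAt_const (by simp)

theorem le_inv {r K : ℝ} (hr : 0 < r) (h : r * K < 1) : K ≤ r⁻¹ := by
  rw [← one_div, le_div_iff₀ hr]
  linarith

/-- local Lipschitz bound -/
theorem ev_lip {m : ℕ} {f : Cm n → Cm m} {z₀ : Cm n} (hf : AnalyticAt ℂ f z₀) {Q : Cm n → Prop}
    (hQ : ∀ᶠ w in 𝓝 z₀, Q w) : ∀ᶠ q : ℝ × Cm n in 𝓝 (0, z₀), 0 < q.1 →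
      ∀ w ∈ closedBall q.2 (q.1 ^ 2), Q w ∧ ‖f w - f q.2‖ ≤ q.1⁻¹ * ‖w - q.2‖ := by
  obtain ⟨K, t, ht, hK⟩ := (hf.contDiffAt (n := 1)).exists_lipschitzOnWith
  filter_upwards [ev_ball ht, ev_ball hQ, ev_small z₀ K] with q h1 h2 h3 hq w hw
  refine ⟨h2 hw, (hK.norm_sub_le (h1 hw) (h1 (mem_closedBall_self (sq_nonneg _)))).trans ?_⟩
  exact mul_le_mul_of_nonneg_right (le_inv hq h3) (norm_nonneg _)

/-- local openness -/
theorem ev_opn {m : ℕ} {f : Cm n → Cm m} {z₀ : Cm n} (hf : AnalyticAt ℂ f z₀)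
    (hs : Surjective (fderiv ℂ f z₀)) : ∀ᶠ q : ℝ × Cm n in 𝓝 (0, z₀), 0 < q.1 →
      ∀ t ∈ closedBall (f q.2) (q.1 ^ 2 / q.1⁻¹), ∃ w, ‖w - q.2‖ ≤ q.1⁻¹ * ‖t - f q.2‖ ∧
        f w = t := by
  have hr : (fderiv ℂ f z₀).range = ⊤ := LinearMap.range_eq_top.2 hs
  set A := (fderiv ℂ f z₀).nonlinearRightInverseOfSurjective hr
  have hA : 0 < A.nnnorm := ContinuousLinearMap.nonlinearRightInverseOfSurjective_nnnorm_pos _ hr
  have hA' : (0 : ℝ) < A.nnnorm := hA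
  obtain ⟨s, hs1, hs2⟩ := hf.hasStrictFDerivAt.approximates_deriv_on_nhds
    (c := A.nnnorm⁻¹ / 2) (Or.inr (by positivity))
  filter_upwards [ev_ball hs1, ev_small z₀ (2 * (A.nnnorm : ℝ))] with q h1 h3 hq t ht
  have hi : 0 < q.1⁻¹ := inv_pos.2 hq
  have ht' : ‖t - f q.2‖ ≤ q.1 ^ 2 / q.1⁻¹ := by rwa [← dist_eq_norm]
  have he : q.1⁻¹ * ‖t - f q.2‖ ≤ q.1 ^ 2 := by
    rw [le_div_iff₀ hi] at ht'
    linarith
  have h0 : 0 ≤ q.1⁻¹ * ‖t - f q.2‖ := by positivity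
  have h4 := hs2.surjOn_closedBall_of_nonlinearRightInverse A h0
    ((closedBall_subset_closedBall he).trans h1)
  obtain ⟨w, hw, e⟩ := h4 (a := t) (by
    rw [mem_closedBall, dist_eq_norm, ← mul_assoc]
    refine le_mul_of_one_le_left (norm_nonneg _) ?_
    have h5 := le_inv hq h3
    have h6 : ((A.nnnorm : ℝ)⁻¹ - (A.nnnorm⁻¹ / 2 : ℝ≥0)) = (A.nnnorm : ℝ)⁻¹ / 2 := by
      push_cast
      ring
    rw [h6]
    calc (1 : ℝ) = (A.nnnorm : ℝ)⁻¹ / 2 * (2 * A.nnnorm) := by field_simp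
      _ ≤ _ := mul_le_mul_of_nonneg_left h5 (by positivity))
  exact ⟨w, by rwa [← dist_eq_norm], e⟩

/-- uniformity over the part of the charts which is mapped into a compact set -/
theorem unif [T2Space E] (C : Cov n Γ E) {L : Set E} (hL : IsCompact L)
    {P : Γ → C.I → ℝ → Cm n → Prop}
    (h : ∀ γ a, ∀ z ∈ C.cB (3 / 2) a, C.pt γ a z ∈ L →
      ∀ᶠ q : ℝ × Cm n in 𝓝 (0, z), P γ a q.1 q.2) :
    ∀ᶠ r in 𝓝 (0 : ℝ), ∀ γ a, ∀ z ∈ C.cB (3 / 2) a, C.pt γ a z ∈ L → P γ a r z := by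
  have h4 : ∀ a, C.cB (3 / 2) a ⊆ C.B 4 a := fun a => C.cB_sub_B (by norm_num) a
  have hK : IsCompact (L ∪ ⋃ a, C.pt 1 a '' C.cB (3 / 2) a) :=
    hL.union (isCompact_iUnion fun a => C.isCompact_image_pt 1 (C.isCompact_cB _ a) (h4 a))
  have h1 : ∀ γ a, ∀ᶠ r in 𝓝 (0 : ℝ), ∀ z ∈ C.cB (3 / 2) a ∩ C.pt γ a ⁻¹' L, P γ a r z := by
    intro γ a
    refine IsCompact.eventually_forall_of_forall_eventually ?_ fun z hz => h γ a z hz.1 hz.2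
    exact (C.isCompact_cB _ a).of_isClosed_subset
      (((C.continuousOn_pt γ a).mono (h4 a)).preimage_isClosed_of_isClosed
        (C.isCompact_cB _ a).isClosed hL.isClosed) inter_subset_left
  have h2 := (eventually_all_finite (C.proper _ hK)).2 fun γ _ => eventually_all.2 (h1 γ)
  filter_upwards [h2] with r hr γ a z hz hzL
  refine hr γ ⟨C.pt 1 a z, Or.inr (mem_iUnion.2 ⟨a, z, hz, rfl⟩), Or.inl ?_⟩ a z ⟨hz, hzL⟩
  rwa [← C.pt_eq]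

end GeoA

open GeoA in
theorem stGeo : StGeo := by
  intro n p Γ E _ _ _ _ C U R₄ hR
  have h4 : ∀ a, C.cB (3 / 2) a ⊆ C.B 4 a := fun a => C.cB_sub_B (by norm_num) a
  have h1 : ∀ᶠ r in 𝓝 (0 : ℝ), r < 1 := gt_mem_nhds one_pos
  have h2 : ∀ᶠ r in 𝓝 (0 : ℝ), r < U.R - R₄ := gt_mem_nhds (by linarith)
  have h3 : ∀ᶠ r in 𝓝 (0 : ℝ), ∀ a, r < (7 / 4 - 3 / 2) * C.r a := eventually_all.2 fun a =>
    gt_mem_nhds (mul_pos (by norm_num) (C.r_pos a))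
  have hch : ∀ᶠ r in 𝓝 (0 : ℝ), ∀ b γ a, ∀ z ∈ C.cB (3 / 2) a,
      C.pt γ a z ∈ C.pt 1 b '' C.cB (3 / 2) b → 0 < r → ∀ w ∈ closedBall z (r ^ 2),
        (C.Ov γ a b w ∧ C.tr γ a b w ∈ C.B (7 / 4) b) ∧
          ‖C.tr γ a b w - C.tr γ a b z‖ ≤ r⁻¹ * ‖w - z‖ := by
    refine eventually_all.2 fun b => unif C
      (C.isCompact_image_pt 1 (C.isCompact_cB _ b) (h4 b)) ?_
    rintro γ a z hz ⟨z', hz', e⟩
    obtain ⟨e1, e2⟩ := C.Ov_of_eq (h4 a hz) (h4 b hz') e.symm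
    rw [inv_one, one_mul] at e1 e2
    refine ev_lip (C.an_tr e1) ((C.ev_Ov e1).and ?_)
    refine (C.an_tr e1).continuousAt.eventually ((C.isOpen_B _ b).mem_nhds ?_)
    rw [e2]
    exact C.cB_sub_B (by norm_num) b hz'
  have hlip : ∀ᶠ r in 𝓝 (0 : ℝ), ∀ γ a, ∀ z ∈ C.cB (3 / 2) a,
      C.pt γ a z ∈ {y ∈ U.T | ‖U.s y - U.t₀‖ ≤ R₄} → 0 < r → ∀ w ∈ closedBall z (r ^ 2),
        C.pt γ a w ∈ U.T ∧ ‖U.s (C.pt γ a w) - U.s (C.pt γ a z)‖ ≤ r⁻¹ * ‖w - z‖ := by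
    refine unif C (U.cpt R₄ hR) fun γ a z hz hL => ?_
    exact ev_lip (f := fun w => U.s (C.pt γ a w)) (U.sub.hol γ a z (h4 a hz) hL.1)
      ((C.continuousAt_pt (h4 a hz) γ).eventually (U.sub.opn.mem_nhds hL.1))
  have hopn : ∀ᶠ r in 𝓝 (0 : ℝ), ∀ γ a, ∀ z ∈ C.cB (3 / 2) a,
      C.pt γ a z ∈ {y ∈ U.T | ‖U.s y - U.t₀‖ ≤ R₄} → 0 < r →
        ∀ t ∈ closedBall (U.s (C.pt γ a z)) (r ^ 2 / r⁻¹), ∃ w,
          ‖w - z‖ ≤ r⁻¹ * ‖t - U.s (C.pt γ a z)‖ ∧ U.s (C.pt γ a w) = t := by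
    refine unif C (U.cpt R₄ hR) fun γ a z hz hL => ?_
    exact ev_opn (f := fun w => U.s (C.pt γ a w)) (U.sub.hol γ a z (h4 a hz) hL.1)
      (U.sub.surj γ a z (h4 a hz) hL.1)
  have hall := (h1.and (h2.and (h3.and (hch.and (hlip.and hopn))))).filter_mono
    (nhdsWithin_le_nhds (s := Ioi 0))
  obtain ⟨r, ⟨r1, r2, r3, r4, r5, r6⟩, hr⟩ := (hall.and self_mem_nhdsWithin).exists
  have hr : 0 < r := hr
  have hsq : r ^ 2 ≤ r := by nlinarith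
  refine ⟨r⁻¹, r ^ 2, (one_le_inv₀ hr).2 r1.le, by positivity, ?_,
    fun a z hz => C.closedBall_sub hz (hsq.trans_lt (r3 a)), ?_,
    fun γ a z hz hT hs => r5 γ a z hz ⟨hT, hs⟩ hr, fun γ a z hz hT hs => r6 γ a z hz ⟨hT, hs⟩ hr⟩
  · have : r⁻¹ * r ^ 2 = r := by field_simp
    rw [this]
    linarith
  · intro γ a γ' b z hz z' hz' e w hw
    have e2 := (C.Ov_of_eq (h4 a hz) (h4 b hz') e).2
    obtain ⟨⟨w1, w2⟩, w3⟩ := r4 b (γ'⁻¹ * γ) a z hz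
      ⟨z', hz', by rw [← C.smul_pt, e, C.smul_pt, inv_mul_cancel]⟩ hr w hw
    refine ⟨_, w2, by rwa [e2] at w3, ?_⟩
    rw [C.pt_tr w1, mul_inv_cancel_left]

end Vale.Agent.P284Y.X4
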