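import Vale.Agent.P284Y.X4.Sk
import Vale.Agent.P284Y.Lib.GlC

/-!
# P284Y, row X4: gluing of the charts and the tube
-/

open scoped ContDiff Topology ComplexOrder
open Filter Set Metric Real

noncomputable section

namespace Vale.Agent.P284Y.X4

open Vale.Agent.P272.K Vale.Agent.P284Z Vale.Agent.P284Y.Lib

variable {n p : ℕ} {Γ E : Type} [Group Γ] [TopologicalSpace E] [MulAction Γ E] (C : Cov n Γ E)

namespace Gl

theorem exists_th' [T2Space E] : ∃ Θ : C.I → E → ℝ, (∀ a y, C.SmAt (Θ a) y) ∧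
    (∀ a (g : Γ) y, Θ a (g • y) = Θ a y) ∧ (∀ a y, |Θ a y| ≤ 1) ∧ (∀ y, ∃ a, Θ a y = 1) ∧
    ∀ a y, (∃ γ, ∃ z ∈ C.cB (3 / 2) a, y = C.pt γ a z) ∨ Θ a =ᶠ[𝓝 y] 0 := by
  set β : ∀ a : C.I, ContDiffBump (C.c a) := fun a =>
    ⟨1 * C.r a, 3 / 2 * C.r a, by linarith [C.r_pos a], by linarith [C.r_pos a]⟩ with hβ
  have h34 : ∀ a, C.cB (3 / 2) a ⊆ C.B 4 a := fun a => C.cB_sub_B (by norm_num) a
  have alt : ∀ a y, (∃ γ, ∃ z ∈ C.cB (3 / 2) a, y = C.pt γ a z) ∨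
      loc C a (fun _ => β a) =ᶠ[𝓝 y] 0 := fun a y => by
    refine or_iff_not_imp_left.2 fun h => ?_
    refine (ev_not_mem C (C.isCompact_cB (3 / 2) a) (h34 a) fun γ h' =>
      h (h'.elim fun x hx => ⟨γ, x, hx.1, hx.2.symm⟩)).mono fun y' hy' => ?_
    by_cases h1 : ∃ γ, y' ∈ (C.ch γ a).source
    · obtain ⟨γ, h1⟩ := h1
      rw [loc_of_mem C h1]
      refine (β a).zero_of_le_dist (not_lt.1 fun h2 => hy' γ ⟨_, le_of_lt h2, C.pt_co h1⟩)
    · exact loc_of_not C (not_exists.1 h1)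
  refine ⟨fun a => loc C a fun _ => β a, ?_, fun a g y => loc_smul C, fun a y => ?_, fun y => ?_,
    alt⟩
  · rintro a _ γ b z hz rfl
    obtain ⟨γ', z', hz', e⟩ | h := alt a (C.pt γ b z)
    · obtain ⟨s, h1, -, h3, -⟩ := two_charts C hz (h34 a hz') e
      refine ((β a).contDiffAt.comp z ((h1.contDiffAt (n := ∞)).restrict_scalars ℝ)
        ).congr_of_eventuallyEq (h3.mono fun x hx => ?_)
      beta_reduce
      rw [hx.2, loc_pt C hx.1]
      rfl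
    · exact (contDiffAt_const (c := 0)).congr_of_eventuallyEq ((C.ev_pt hz γ).1 h)
  · simp only [loc]
    split_ifs
    · rw [abs_of_nonneg (β a).nonneg]; exact (β a).le_one
    · simp
  · obtain ⟨γ, a, z, hz, rfl⟩ := C.exists_pt y
    exact ⟨a, (loc_pt C (C.B14 hz)).trans <| (β a).one_of_mem_closedBall (C.B_sub_cB 1 a hz)⟩

/-- the derivatives of a smooth function which is invariant off a compact set -/
theorem exists_bound {F G : E → ℝ} {L : Set E} (hF : ∀ y, C.SmAt F y) (hG : ∀ y, C.SmAt G y)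
    (hi : ∀ (g : Γ) y, G (g • y) = G y) (hL : IsCompact L) (h : ∀ y ∉ L, F =ᶠ[𝓝 y] G) :
    ∃ M ≥ (0 : ℝ), ∀ γ b, ∀ z ∈ C.B 4 b, ∀ w, gsq (fun x => F (C.pt γ b x)) z w +
      |levi (fun x => F (C.pt γ b x)) z w| ≤ M * levi (C.ρ b) z w := by
  have h14 : ∀ a, C.cB 1 a ⊆ C.B 4 a := fun a => C.cB_sub_B (by norm_num) a
  obtain ⟨N, hN0, hN⟩ := exists_inv_bound C hG hi
  obtain ⟨S, hS⟩ := C.cover_compact hL
  choose M hM0 hM using fun γ a => exists_levi_bound (ρ := C.ρ a) (f := fun x => F (C.pt γ a x))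
    (C.isCompact_cB 1 a) (fun z hz => ⟨(C.ρ_sm a z (h14 a hz)).of_le two_le_inf,
      fun w hw => levi_ρ_pos C (h14 a hz) hw⟩)
    fun z hz => (hF _ γ a z (h14 a hz) rfl).of_le two_le_inf
  have h0 : ∀ γ, 0 ≤ ∑ a, M γ a := fun γ => Finset.sum_nonneg fun a _ => hM0 γ a
  have h1 : 0 ≤ ∑ γ ∈ S, ∑ a, M γ a := Finset.sum_nonneg fun γ _ => h0 γ
  refine ⟨N + ∑ γ ∈ S, ∑ a, M γ a, add_nonneg hN0 h1, fun γ b z hz w => ?_⟩
  by_cases hy : C.pt γ b z ∈ L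
  · obtain ⟨γ', hγ, a, z', hz', e⟩ := hS _ hy
    obtain ⟨s, h1, rfl, h3, h4⟩ := two_charts C hz (C.B14 hz') e
    have h5 : (fun x => F (C.pt γ b x)) =ᶠ[𝓝 z] fun x => F (C.pt γ' a (s x)) :=
      h3.mono fun x hx => by
        beta_reduce
        rw [hx.2]
    have h6 : ContDiffAt ℝ 2 (fun x => F (C.pt γ' a x)) (s z) :=
      (hF _ γ' a _ (C.B14 hz') rfl).of_le two_le_inf
    rw [gsq_congr h5, levi_congr h5, h4, levi_hol h1 h6,
      gsq_hol h1.differentiableAt (h6.differentiableAt two_ne_zero)]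
    exact (hM γ' a _ (C.B_sub_cB 1 a hz') _).trans (mul_le_mul_of_nonneg_right
      (le_add_of_nonneg_of_le hN0 ((Finset.single_le_sum (fun a _ => hM0 γ' a)
        (Finset.mem_univ a)).trans (Finset.single_le_sum (fun γ _ => h0 γ) hγ)))
      (levi_ρ_nonneg C (C.B14 hz') _))
  · have h5 : (fun x => F (C.pt γ b x)) =ᶠ[𝓝 z] fun x => G (C.pt γ b x) := (C.ev_pt hz γ).1 (h _ hy)
    rw [gsq_congr h5, levi_congr h5]
    exact (hN γ b z hz w).trans (mul_le_mul_of_nonneg_right (le_add_of_nonneg_right h1)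
      (levi_ρ_nonneg C hz _))

variable {C}

/-- a bump function on the tube -/
theorem exists_tb [T2Space E] (U : Tu C p) {r r' R : ℝ} (h0 : 0 < r) (h1 : r < r') (h2 : r' ≤ R)
    (h3 : R < U.R) : ∃ b : E → ℝ, (∀ y, C.SmAt b y) ∧ (∀ y, 0 ≤ b y ∧ b y ≤ 1) ∧
      (∀ y ∈ U.T, ‖U.s y - U.t₀‖ ≤ r → b y = 1) ∧
      (∀ y, ¬ (y ∈ U.T ∧ ‖U.s y - U.t₀‖ ≤ r') → b y = 0) ∧
      ∀ y, ¬ (y ∈ U.T ∧ ‖U.s y - U.t₀‖ ≤ R) → b =ᶠ[𝓝 y] 0 := by
  let β : ContDiffBump U.t₀ := ⟨r, r', h0, h1⟩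
  have k0 : ∀ y, ¬ (y ∈ U.T ∧ ‖U.s y - U.t₀‖ ≤ r') → U.T.indicator (fun y => β (U.s y)) y = 0 :=
    fun y hy => indicator_apply_eq_zero.2 fun h => β.zero_of_le_dist
      (by rw [dist_eq_norm]; exact (not_le.1 fun h' => hy ⟨h, h'⟩).le)
  have k1 : ∀ y, ¬ (y ∈ U.T ∧ ‖U.s y - U.t₀‖ ≤ R) →
      U.T.indicator (fun y => β (U.s y)) =ᶠ[𝓝 y] 0 := fun y hy =>
    mem_of_superset ((U.cpt R h3).isClosed.isOpen_compl.mem_nhds hy) fun y' hy' =>
      k0 y' fun h => hy' ⟨h.1, h.2.trans h2⟩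
  refine ⟨U.T.indicator fun y => β (U.s y), ?_, fun y => ⟨indicator_nonneg (fun _ _ => β.nonneg) _,
    indicator_apply_le' (fun _ => β.le_one) fun _ => zero_le_one⟩, fun y hy h => ?_, k0, k1⟩
  · rintro _ γ b z hz rfl
    by_cases hy : C.pt γ b z ∈ U.T
    · refine (β.contDiffAt.comp z (((U.sub.hol γ b z hz hy).contDiffAt (n := ∞)).restrict_scalars ℝ)
        ).congr_of_eventuallyEq (((C.ev_pt hz γ).1 (U.sub.opn.mem_nhds hy)).mono fun x hx => ?_)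
      exact indicator_of_mem hx _
    · exact (contDiffAt_const (c := 0)).congr_of_eventuallyEq
        ((C.ev_pt hz γ).1 (k1 _ fun h => hy h.1))
  · rw [indicator_of_mem hy]
    exact β.one_of_mem_closedBall (mem_closedBall_iff_norm.2 h)

/-- the partition -/
theorem exists_part [T2Space E] (U : Tu C p) {R₃ R₄ : ℝ} (h0 : 0 < R₃) (h1 : R₃ < R₄)
    (h2 : R₄ < U.R) : ∃ (θ : Option C.I → E → ℝ) (M : ℝ), 0 ≤ M ∧ (∀ i y, C.SmAt (θ i) y) ∧
      (∀ i y, |θ i y| ≤ 1) ∧ (∀ y, 1 ≤ ∑ i, θ i y ^ 2) ∧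
      (∀ i y, ¬ Act U R₄ i y → θ i =ᶠ[𝓝 y] 0) ∧
      (∀ y ∈ U.T, ‖U.s y - U.t₀‖ ≤ R₃ → θ none y = 1 ∧ ∀ a, θ (some a) y = 0) ∧
      ∀ i γ b, ∀ z ∈ C.B 4 b, ∀ w, gsq (fun x => θ i (C.pt γ b x)) z w +
        |levi (fun x => θ i (C.pt γ b x)) z w| ≤ M * levi (C.ρ b) z w := by
  obtain ⟨Θ, a1, a2, a3, a4, a5⟩ := exists_th' C
  obtain ⟨b, b1, b2, b3, -, b5⟩ := exists_tb U (r := (R₃ + R₄) / 2) (by linarith) (by linarith)
    le_rfl h2
  obtain ⟨c, c1, c2, c3, c4, c5⟩ := exists_tb U (r' := (R₃ + R₄) / 2) h0 (by linarith)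
    (by linarith) h2
  let θ : Option C.I → E → ℝ := fun i => i.elim b fun a y => Θ a y * (1 - c y)
  have sm : ∀ i y, C.SmAt (θ i) y := by
    rintro (_ | a) y
    · exact b1 y
    · exact fun γ b z hz e => (a1 a y γ b z hz e).mul (contDiffAt_const.sub (c1 y γ b z hz e))
  have bd : ∀ i, ∃ M ≥ (0 : ℝ), ∀ γ b, ∀ z ∈ C.B 4 b, ∀ w, gsq (fun x => θ i (C.pt γ b x)) z w +
      |levi (fun x => θ i (C.pt γ b x)) z w| ≤ M * levi (C.ρ b) z w := by
    rintro (_ | a)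
    · exact exists_bound C (G := 0) (sm none) (fun _ _ _ _ _ _ => contDiffAt_const)
        (fun _ _ => rfl) (U.cpt R₄ h2) b5
    · exact exists_bound C (sm (some a)) (a1 a) (a2 a) (U.cpt R₄ h2) fun y hy =>
        (c5 y hy).mono fun y' h => by simp [θ, h]
  choose M hM0 hM using bd
  refine ⟨θ, ∑ i, M i, Finset.sum_nonneg fun i _ => hM0 i, sm, ?_, fun y => ?_, ?_,
    fun y hy h => ⟨b3 y hy (by linarith), fun a => by simp [θ, c3 y hy h]⟩,
    fun i γ b z hz w => (hM i γ b z hz w).trans (mul_le_mul_of_nonneg_right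
      (Finset.single_le_sum (fun a _ => hM0 a) (Finset.mem_univ i)) (levi_ρ_nonneg C hz _))⟩
  · rintro (_ | a) y
    · exact abs_le.2 ⟨by linarith [(b2 y).1, show θ none y = b y from rfl], (b2 y).2⟩
    · exact (abs_mul _ _).trans_le (mul_le_one₀ (a3 a y) (abs_nonneg _)
        (abs_le.2 ⟨by linarith [(c2 y).2], by linarith [(c2 y).1]⟩))
  · obtain ⟨i, hi⟩ : ∃ i, θ i y = 1 := by
      by_cases h : y ∈ U.T ∧ ‖U.s y - U.t₀‖ ≤ (R₃ + R₄) / 2
      · exact ⟨none, b3 y h.1 h.2⟩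
      · obtain ⟨a, ha⟩ := a4 y
        exact ⟨some a, by simp [θ, ha, c4 y h]⟩
    have := Finset.single_le_sum (f := fun i => θ i y ^ 2) (fun _ _ => sq_nonneg _)
      (Finset.mem_univ i)
    rwa [hi, one_pow] at this
  · rintro (_ | a) y h
    · exact b5 y h
    · exact ((a5 a y).resolve_left h).mono fun y' h => by simp [θ, h]

theorem glue_add {ι : Type} [Fintype ι] {θ f : ι → ℝ} {g : ℝ} (hg : 0 < g) (h1 : 1 ≤ ∑ i, θ i ^ 2)
    (t : ℝ) : g * log (∑ i, θ i ^ 2 * exp ((t + f i) / g)) =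
      t + g * log (∑ i, θ i ^ 2 * exp (f i / g)) := by
  have h2 : 0 < ∑ i, θ i ^ 2 * exp (f i / g) := by
    obtain ⟨i, -, hi⟩ := Finset.exists_ne_zero_of_sum_ne_zero (zero_lt_one.trans_le h1).ne'
    exact Finset.sum_pos' (fun _ _ => by positivity) ⟨i, Finset.mem_univ _,
      mul_pos ((sq_nonneg _).lt_of_ne' hi) (exp_pos _)⟩
  simp only [add_div, exp_add, mul_left_comm _ (exp (t / g))]
  rw [← Finset.mul_sum, log_mul (exp_ne_zero _) h2.ne', log_exp, mul_add, mul_div_cancel₀ _ hg.ne']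

end Gl

open Gl

theorem stGl : StGl := by
  intro n p Γ E _ _ _ _ C U R₃ R₄ h0 h1 h2
  obtain ⟨θ, M, a0, a1, a2, a3, a4, a5, a6⟩ := exists_part U h0 h1 h2
  obtain ⟨m, hm⟩ : ∃ m : ℝ, m = Fintype.card (Option C.I) := ⟨_, rfl⟩
  have m0 : 0 ≤ m := by rw [hm]; positivity
  have k0 : 0 ≤ 4 * exp 1 * m * M := by positivity
  refine ⟨4 * exp 1 * m * M + 2 * (1 + m),
    fun δ f y => 2 * δ * log (∑ i, θ i y ^ 2 * exp (f i y / (2 * δ))), by positivity,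
    fun δ hδ f y hy h => ?_, fun δ hδ f y v H => ?_⟩
  · obtain ⟨b1, b2⟩ := a5 y hy h.le
    simp only [Fintype.sum_option, b1, b2]
    simp [mul_div_cancel₀ _ (by positivity : 2 * δ ≠ 0)]
  have hg : 0 < 2 * δ := by positivity
  have key := fun γ a z (hz : z ∈ C.B 4 a) (e : C.pt γ a z = y) (τ : Cm n → ℝ)
      (hτ : ContDiffAt ℝ ∞ τ z) => glue_alt (θ := fun i x => θ i (C.pt γ a x))
    (f := fun i x => τ x + f i (C.pt γ a x)) (fun i => Act U R₄ i y) hg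
    (fun i => a1 i y γ a z hz e)
    (fun i hi => (C.ev_pt hz γ (Q := fun y => θ i y = 0)).1 (by rw [e]; exact a4 i y hi))
    (fun i hi => hτ.add ((H i hi).1 γ a z hz e)) (fun i j hi hj => by
      rw [e]; linarith [abs_le.1 (H i hi).2, abs_le.1 (H j hj).2]) (a3 _)
  simp only [glue_add hg (a3 _)] at key
  refine ⟨fun γ a z hz e => ?_, (glue_abs hg (a3 y) (fun i => a2 i y) fun i hi => ?_).trans ?_,
    fun γ a z hz e τ hτ h => ?_⟩
  · simpa only [zero_add] using (key γ a z hz e (fun _ => 0) contDiffAt_const).1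
  · exact (H i (by_contra fun h => hi (a4 i y h).self_of_nhds)).2.trans (by linarith)
  · rw [← hm]; nlinarith
  · obtain ⟨k1, k2⟩ := key γ a z hz e τ hτ
    have hρ : ContDiffAt ℝ 2 (C.ρ a) z := (C.ρ_sm a z hz).of_le two_le_inf
    have k3 := k1.of_le two_le_inf
    have k4 : ContDiffAt ℝ 2 (fun w => (4 * exp 1 * m * M + 2 * (1 + m)) * δ * C.ρ a w) z :=
      contDiffAt_const.mul hρ
    refine (cHess_psd_iff (k4.add k3)).2 fun w => ?_
    have k5 := k2 w 0 (M * levi (C.ρ a) z w) (fun i hi => neg_zero.trans_le ((cHess_psd_iff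
      ((hτ.add ((H i hi).1 γ a z hz e)).of_le two_le_inf)).1 (h i hi) w)) fun i => by
        refine le_trans (add_le_add_right ?_ _) (a6 i γ a z hz w)
        rw [abs_mul]
        exact mul_le_of_le_one_left (abs_nonneg _) (a2 _ _)
    rw [levi_add k4 k3, levi_const_mul hρ]
    rw [← hm] at k5
    have k6 : 0 ≤ (1 + m) * δ * levi (C.ρ a) z w := by
      have := levi_ρ_nonneg C hz w
      positivity
    linarith

end Vale.Agent.P284Y.X4
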