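import Vale.Agent.P284Y.X4.Sk
import Vale.Agent.P284Z.L.S5b
import Vale.Agent.P284Z.L.Gc
import Vale.Agent.P284Z.L.S5a

/-!
# P284Y, row X4: the metric and the cut-off
-/

open scoped ContDiff Topology ComplexOrder
open Filter Set Function Metric

noncomputable section

namespace Vale.Agent.P284Y.X4

open Vale.Agent.P272.K Vale.Agent.P284.H650 Vale.Agent.P284Z Vale.Agent.P284Z.J
  Vale.Agent.P284Z.L Vale.Agent.P284Z.L.S5b

namespace MM

variable {n : ℕ} {Γ E : Type} [Group Γ] [TopologicalSpace E] [MulAction Γ E] {C : Cov n Γ E}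
  {γ : Γ} {a : C.I} {z : Cm n} {l : Mx n →ₗ[ℝ] ℝ} {A K : ℝ} {t η : E → ℝ}

/-- `log (1 + K - t)` -/
def ψ (K : ℝ) (t : E → ℝ) (y : E) : ℝ := lm (t y - K)

omit [TopologicalSpace E] in
theorem kap_eq (K : ℝ) (t : E → ℝ) : kap K t = fun y => -ψ K t y := funext fun y => by
  rw [kap, ψ, lm, sub_sub_eq_add_sub]

omit [TopologicalSpace E] in
theorem ψ_nonneg (hK : ∀ y, t y ≤ K) (y : E) : 0 ≤ ψ K t y :=
  Real.log_nonneg (by linarith [hK y])

theorem sm_ψ (ht : ∀ y, C.SmAt t y) (hK : ∀ y, t y ≤ K) (y : E) : C.SmAt (ψ K t) y :=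
  sm_comp (f := fun y => t y - K) (sm_lm (by linarith [hK y])) (sm_sub (ht y) (sm_const K))

theorem sm_kap (ht : ∀ y, C.SmAt t y) (hK : ∀ y, t y ≤ K) (y : E) : C.SmAt (kap K t) y := by
  rw [kap_eq]
  exact fun γ a z hz e => (sm_ψ ht hK y γ a z hz e).neg

theorem kap_ge (hA : 0 ≤ A) (ht : ∀ y, C.SmAt t y) (hp : Psd C (C.om A t) univ)
    (hK : ∀ y, t y ≤ K) (hl : Pf l) (hz : z ∈ C.B 4 a) :
    l (cHess (C.ρ a) z) + l (C.gg (ψ K t) (ψ K t) γ a z) ≤ l (C.om (A + 1) (kap K t) γ a z) := by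
  have h0 := hK (C.pt γ a z)
  have h1 : t (C.pt γ a z) - K < 1 := by linarith
  have h2 := two hz (ht (C.pt γ a z))
  have h2' : ContDiffAt ℝ 2 (fun w => t (C.pt γ a w) - K) z := h2.sub contDiffAt_const
  have h3 := lin_comp (φ := lm) ((sm_lm h1).of_le two_le) h2' l
  have h4 := lin_gg_comp (φ := lm) ((sm_lm h1).differentiableAt (by simp))
    (h2'.differentiableAt two_ne_zero) l
  have h5 := hl.pos _ (hp γ a z hz trivial)
  have h6 := mul_nonneg hA (hl.pos _ (C.ρ_pos a z hz).posSemidef)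
  rw [lin_om hz (ht _)] at h5
  rw [deriv_lm h1] at h3 h4
  rw [deriv2_lm h1, C2.cHess_sub h2 contDiffAt_const, C2.cHess_const, sub_zero] at h3
  have h7 : 0 < (1 - (t (C.pt γ a z) - K))⁻¹ := inv_pos.2 (by linarith)
  have h8 : (1 - (t (C.pt γ a z) - K))⁻¹ ≤ 1 := inv_le_one_of_one_le₀ (by linarith)
  have e1 : l (C.gg (ψ K t) (ψ K t) γ a z) = _ := h4
  have e2 : l (cHess (fun w => ψ K t (C.pt γ a w)) z) = _ := h3
  rw [lin_om hz (sm_kap ht hK _), kap_eq, C2.cHess_neg (two hz (sm_ψ ht hK _)), map_neg, e1, e2]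
  nlinarith [mul_nonneg h7.le h5, mul_nonneg (sub_nonneg.2 h8) h6]

theorem grad (hη : ∀ y, C.SmAt η y) {K₀ : ℝ}
    (h₀ : Psd C ((K₀ : ℂ) • C.om 1 (fun _ => 0) - C.gg η η) univ) (hA : 0 ≤ A)
    (ht : ∀ y, C.SmAt t y) (hp : Psd C (C.om A t) univ) (hK : ∀ y, t y ≤ K) (hl : Pf l)
    (hz : z ∈ C.B 4 a) :
    l (gg (fun w => η (C.pt γ a w) + ψ K t (C.pt γ a w))
      (fun w => η (C.pt γ a w) + ψ K t (C.pt γ a w)) z) ≤
      (2 * |K₀| + 2) * l (C.om (A + 1) (kap K t) γ a z) := by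
  have d1 := (two hz (hη (C.pt γ a z))).differentiableAt two_ne_zero
  have d2 := (two hz (sm_ψ ht hK (C.pt γ a z))).differentiableAt two_ne_zero
  have h1 := gg_add_le hl d1 d2
  have h3 : 0 ≤ l ((K₀ : ℂ) • C.om 1 (fun _ => 0) γ a z - C.gg η η γ a z) :=
    hl.pos _ (h₀ γ a z hz trivial)
  have h4 := kap_ge (γ := γ) hA ht hp hK hl hz
  have h5 := hl.pos _ (C.ρ_pos a z hz).posSemidef
  have h6 : 0 ≤ l (C.gg (ψ K t) (ψ K t) γ a z) := hl.gg_nonneg _ _
  have h8 := mul_le_mul_of_nonneg_left h4 (by positivity : 0 ≤ 2 * |K₀| + 2)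
  have h9 := mul_le_mul_of_nonneg_right (le_abs_self K₀) h5
  rw [map_sub, lin_csmul, lin_one hz] at h3
  simp only [Cov.gg] at h3 h6 h8
  nlinarith [mul_nonneg (abs_nonneg K₀) h6]

/-- the profile of the cut-off -/
def pr (ν x : ℝ) : ℝ := Real.smoothTransition (2 - x / ν)

theorem sm_pr (ν : ℝ) : ContDiff ℝ ∞ (pr ν) :=
  Real.smoothTransition.contDiff.comp (contDiff_const.sub (contDiff_id.div_const ν))

theorem deriv_pr (ν x : ℝ) :
    deriv (pr ν) x = deriv Real.smoothTransition (2 - x / ν) * -(1 / ν) :=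
  ((((Real.smoothTransition.contDiff (n := 1)).differentiable one_ne_zero) _).hasDerivAt.comp x
    (((hasDerivAt_id x).div_const ν).const_sub 2)).deriv

omit [TopologicalSpace E] in
theorem chi_eq (ν : ℝ) : chi η (kap K t) ν = fun y => pr ν (η y + ψ K t y) := funext fun y => by
  rw [chi, pr, kap_eq, sub_neg_eq_add]

end MM

open MM in
theorem stM : StM := by
  intro n Γ E _ _ _ _ C η hη
  obtain ⟨K₀, h₀⟩ := hη.grad
  obtain ⟨L, hL0, hL⟩ := exists_st'
  refine ⟨L ^ 2 * (2 * |K₀| + 2), by positivity, fun A K t hA ht hp hK => ?_⟩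
  have hc : Continuous fun y => η y - kap K t y :=
    S5a.cont_of_sm C fun y => sm_sub (hη.sm y) (sm_kap ht hK y)
  refine ⟨sm_kap ht hK, fun γ a z hz _ => psd_of_pf
    ((herm_om hz (sm_kap ht hK _)).sub (herm_om hz sm_zero)) fun l hl => ?_, fun c => ?_, hc,
    fun ν hν => ⟨fun y => ?_, fun e he γ a z hz _ => psd_of_pf
      ((herm_smul (herm_om hz (sm_kap ht hK _)) _).sub (gg_psd _ z).1) fun l hl => ?_⟩⟩
  · have h1 := kap_ge (γ := γ) hA ht hp hK hl hz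
    have h2 : 0 ≤ l (C.gg (ψ K t) (ψ K t) γ a z) := hl.gg_nonneg _ _
    change 0 ≤ l (C.om (A + 1) (kap K t) γ a z - C.om 1 (fun _ => 0) γ a z)
    rw [map_sub, lin_one hz]
    linarith
  · refine (hη.cpt c).of_isClosed_subset (isClosed_le hc continuous_const) fun y hy => ?_
    have h1 := MM.ψ_nonneg hK y
    have h2 : η y - kap K t y ≤ c := hy
    rw [kap_eq] at h2
    change η y ≤ c
    linarith
  · rw [chi_eq]
    exact sm_comp (f := fun y => η y + ψ K t y) (sm_pr ν).contDiffAt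
      (sm_add (hη.sm y) (MM.sm_ψ ht hK y))
  · have d1 := (two hz (hη.sm (C.pt γ a z))).differentiableAt two_ne_zero
    have d2 := (two hz (MM.sm_ψ ht hK (C.pt γ a z))).differentiableAt two_ne_zero
    have h1 := lin_gg_comp (φ := pr ν) ((sm_pr ν).differentiable (by simp) _) (d1.fun_add d2) l
    have h2 := MM.grad (γ := γ) hη.sm h₀ hA ht hp hK hl hz
    have h3 := kap_ge (γ := γ) hA ht hp hK hl hz
    have h4 := hl.pos _ (C.ρ_pos a z hz).posSemidef
    have h5 : 0 ≤ l (C.gg (ψ K t) (ψ K t) γ a z) := hl.gg_nonneg _ _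
    have h6 : deriv (pr ν) (η (C.pt γ a z) + ψ K t (C.pt γ a z)) ^ 2 ≤ L ^ 2 / ν ^ 2 := by
      rw [deriv_pr, mul_pow, neg_sq, one_div, inv_pow, div_eq_mul_inv (L ^ 2)]
      exact mul_le_mul_of_nonneg_right (pow_le_pow_left₀ (st'_nonneg _) (hL _) 2) (by positivity)
    have h7 := mul_le_mul h6 h2 (hl.gg_nonneg _ _) (by positivity)
    have h8 := mul_le_mul_of_nonneg_right he (by linarith : 0 ≤ l (C.om (A + 1) (kap K t) γ a z))
    change 0 ≤ l ((e : ℂ) • C.om (A + 1) (kap K t) γ a z - C.gg _ _ γ a z)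
    rw [map_sub, lin_csmul, chi_eq]
    simp only [Cov.gg]
    rw [h1]
    rw [mul_div_right_comm, mul_assoc] at h8
    linarith

end Vale.Agent.P284Y.X4
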