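import Vale.Agent.P284Y.X4.S1

/-!
# P284Y, row X4: smooth weights of the line bundle
-/

open scoped ContDiff Topology ComplexOrder
open Filter Set Function Metric MeasureTheory Real

noncomputable section

namespace Vale.Agent.P284Y.X4

open Vale.Agent.P272.K Vale.Agent.P284Z Vale.Agent.P284Z.K Vale.Agent.P284Y.Lib

variable {n p : ℕ} {Γ E : Type} [Group Γ] [TopologicalSpace E] [MulAction Γ E] {C : Cov n Γ E}
  {B : Bn C p} {γ γ' : Γ} {a b : C.I} {I J : B.F} {z z' : Cm n} {r : ℝ} {Q : E → ℝ}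
  {Qb : Cm p → ℝ} {y : E}

variable (B Q Qb) in
/-- the pieces -/
def pcs (r : ℝ) : Option C.I → E → ℝ
  | none => fun y => cl r Qb (B.s y) + log (B.NT y)
  | some a => loc C a (pc B Q r a)

variable (B) in
/-- `f` is a smooth weight with positive curvature at `y`, and its value is near `v` -/
structure Pk (f : E → ℝ) (y : E) (v d : ℝ) : Prop where
  sm : C.SmAt f y
  abs : |f y - v| ≤ d
  psd : ∀ γ a I, ∀ z ∈ B.U a I, C.pt γ a z = y →
    (cHess (fun w => -(1 * log (B.N a I w)) + f (C.pt γ a w)) z).PosSemidef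

theorem pk_ch (hQ : Wt B Q Qb) (hr : 0 < r) (hJ : closedBall z' (3 * r) ⊆ B.U b J)
    (h0 : ∃ w ∈ closedBall z' r, 0 < wt B Q γ' b J w) {v d : ℝ}
    (h : SP (cl r (wt B Q γ' b J)) z' ∧ |cl r (wt B Q γ' b J) z' - (v - log (B.N b J z'))| ≤ d) :
    Pk B (loc C b (pc B Q r b)) (C.pt γ' b z') v d := by
  have m := hJ (mem_closedBall_self (by positivity))
  have e := pc_ev hQ hr hJ h0
  refine ⟨fun γ a z hz h1 => ?_, ?_, fun γ a I z hz h1 => ?_⟩
  · obtain ⟨k1, k2⟩ := an_co hz (Bn.mem4 m) h1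
    exact (ContDiffAt.comp z (g := cw B Q r γ' b J) (k2.symm ▸ h.1.sm.add ((B.N_sm b J z' m).log
      (B.N_pos b J z' m).ne') :) (an_sm k1)).congr_of_eventuallyEq (loc_ev hz (Bn.mem4 m) h1 e)
  · rw [loc_pt C (Bn.mem4 m), e.self_of_nhds, cw, ← sub_sub_eq_add_sub, sub_sub_eq_add_sub,
      add_sub_assoc, ← neg_sub v, ← sub_eq_add_neg]
    exact h.2
  · obtain ⟨k1, k2⟩ := an_co (Bn.mem4 hz) (Bn.mem4 m) h1
    refine (((SP.comp jb (k2.symm ▸ h.1 :) k1).add (sp_of_unit hz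
      (B.N_ch γ a I γ' b J z hz z' m h1))).congr ?_).psd
    filter_upwards [loc_ev (Bn.mem4 hz) (Bn.mem4 m) h1 e] with w hw
    rw [hw, cw]
    ring

theorem pk_T (hy : y ∈ B.T) {v d : ℝ}
    (h : SP (cl r Qb) (B.s y) ∧ |cl r Qb (B.s y) - (v - log (B.NT y))| ≤ d) :
    Pk B (fun y => cl r Qb (B.s y) + log (B.NT y)) y v d := by
  refine ⟨fun γ a z hz h1 => ?_, ?_, fun γ a I z hz h1 => ?_⟩
  · subst h1
    exact (SP.comp jb (s := fun w => B.s (C.pt γ a w)) h.1 (B.sub.hol γ a z hz hy)).sm.add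
      ((B.NT_sm _ hy γ a z hz rfl).log (B.NT_pos _ hy).ne')
  · rw [add_sub_assoc, ← neg_sub v, ← sub_eq_add_neg]
    exact h.2
  · subst h1
    refine (((SP.comp jb (s := fun w => B.s (C.pt γ a w)) h.1 (B.sub.hol γ a z (Bn.mem4 hz)
      hy)).add (sp_of_unit hz (B.NT_ch γ a I z hz hy))).congr
        (Eventually.of_forall fun w => ?_)).psd
    ring

theorem top (hQ : Wt B Q Qb) {R₄ c ρ K κ x l : ℝ} (hc : 0 < c) (hκ : 0 < κ) (hx : 0 < x)
    (hl : 1 ≤ l) (hρ : l * x ≤ ρ) (hρ' : x < ρ) (g : Gd B R₄ c ρ γ a I z)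
    (hup : ∀ w ∈ closedBall z ρ, Q (C.pt γ a w) ≤ K)
    (hlow : ∃ w ∈ closedBall z x, ∀ I, w ∈ B.U a I → κ * x ^ c ≤ Q (C.pt γ a w))
    (hK : K * x ^ c ≤ κ * ρ ^ 2 * ρ ^ (2 * c)) :
    ∃ z₁, ‖z₁ - z‖ ≤ x ∧ 0 < Q (C.pt γ a z₁) ∧ ∀ w, ‖w - z‖ ≤ l * x →
      Q (C.pt γ a w) ≤ exp (c * (2 * log l + 2) + log (Q (C.pt γ a z₁))) := by
  obtain ⟨w₀, h1, h2⟩ := hlow
  have ρ0 := hx.trans hρ'
  have s := closedBall_subset_closedBall (x := z) hρ'.le
  have h3 := h2 I (g w₀ (s h1)).1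
  have x0 := rpow_pos_of_pos hx c
  have K0 : 0 ≤ K := (mul_pos hκ x0).le.trans (h3.trans (hup _ (s h1)))
  obtain ⟨z₁, k1, k2, k3⟩ := low (P := wt B Q γ a I) (M := K / ρ) (m := κ * x ^ c * ρ) (c := 2 * c)
    (hQ.psh γ a I) (fun w hw => (g w hw).1)
    (fun w hw => div_le_div₀ K0 (hup w hw) ρ0 (g w hw).2.1) (by positivity) h1
    ((le_div_iff₀ (B.N_pos a I _ (g w₀ (s h1)).1)).2 (by
      rw [mul_assoc]
      exact (mul_le_of_le_one_right (by positivity) (g w₀ (s h1)).2.2.1).trans h3))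
    hx le_rfl hρ' (by positivity) (by
      rw [div_rpow ρ0.le hx.le, two_mul c, rpow_add hx, ← two_mul c, div_div,
        div_le_div_iff₀ (by positivity) (by positivity)]
      nlinarith [mul_le_mul_of_nonneg_right hK x0.le])
  have n1 := B.N_pos a I _ (g z₁ (s k1)).1
  have K1 : 0 < K := (mul_pos hκ x0).trans_le (h3.trans (hup _ (s h1)))
  have p1 : 0 < wt B Q γ a I z₁ := lt_of_lt_of_le (by positivity) k2
  have p2 := (div_pos_iff_of_pos_right n1).1 p1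
  refine ⟨z₁, mem_closedBall_iff_norm.1 k1, p2, fun w hw => ?_⟩
  have m := g w (mem_closedBall_iff_norm.2 (hw.trans hρ))
  have n2 := B.N_pos a I _ m.1
  have h4 := (div_le_iff₀ n2).1 (k3 l hl hρ w (mem_closedBall_iff_norm.2 hw))
  refine h4.trans ?_
  rw [rpow_def_of_pos (one_pos.trans_le hl), ← exp_log p1, ← exp_log n2, ← exp_add, ← exp_add, wt,
    log_div p2.ne' n1.ne']
  refine exp_le_exp.2 ?_
  linarith [(abs_le.1 m.2.2.2.1).2, (abs_le.1 (g z₁ (s k1)).2.2.2.1).1]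

theorem stS : StS := by
  intro hGeo hGl n p Γ E _ _ _ _ C B R₃ h0 hR
  obtain ⟨R₄, r1, r2⟩ := exists_between hR
  obtain ⟨K₀, r₀, G⟩ := hGeo n p Γ E C B.toTu R₄ r2
  obtain ⟨K₁, gl, H⟩ := hGl n p Γ E C B.toTu R₃ R₄ h0 r1 r2
  obtain ⟨A₁, a1, hA₁⟩ := brk n
  obtain ⟨A₂, a2, hA₂⟩ := brk p
  have k1 := G.one_le
  have k0 := one_pos.trans_le k1
  have l1 : 1 ≤ 3 * K₀ ^ 2 := by nlinarith
  have l0 := log_nonneg l1
  have := H.pos
  set D := 2 * log (3 * K₀ ^ 2) + 2 with hD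
  have D0 : 0 < D := by positivity
  refine ⟨1 + K₁ * ((A₁ + A₂) * (D + 1)), by positivity,
    fun c hc L Q Qb K hL hQ hfr hup ⟨κ, κ0, hlow⟩ => ?_⟩
  obtain ⟨ρ, ⟨hρ, ρ1⟩, ρ0⟩ := ((((leb hL r2 hc hfr).and (ge_mem_nhds G.pos)).filter_mono
    (nhdsWithin_le_nhds (s := Ioi 0))).and self_mem_nhdsWithin).exists
  have ρ0 : 0 < ρ := ρ0
  have t1 : Tendsto (fun r : ℝ => r / K₀) (𝓝[>] 0) (𝓝[>] 0) := tendsto_nhdsWithin_iff.2
    ⟨by simpa using ((tendsto_id (x := 𝓝 (0 : ℝ))).div_const K₀).mono_left nhdsWithin_le_nhds,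
      eventually_mem_nhdsWithin.mono fun r hr => div_pos hr k0⟩
  filter_upwards [t1.eventually hlow, t1.eventually (ev_rpow_lt K hc
    (show 0 < κ * ρ ^ 2 * ρ ^ (2 * c) by positivity)), self_mem_nhdsWithin,
    mem_nhdsWithin_of_mem_nhds (ge_mem_nhds (show 0 < ρ / (3 * K₀) by positivity))]
    with r e1 e2 r0 e3
  have r0 : 0 < r := r0
  have e3 : 3 * K₀ * r ≤ ρ := (le_div_iff₀' (by positivity)).1 e3
  have e4 : 3 * K₀ ^ 2 * (r / K₀) = K₀ * (3 * r) := by field_simp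
  have e5 : K₀ * (r / K₀) = r := by field_simp
  have e6 : 3 * r ≤ ρ := by nlinarith
  have e7 : r / K₀ ≤ r := div_le_self r0.le k1
  set δ := (A₁ + A₂) * (c * D + c) with hδ
  have d0 : 0 < c * D + c := by positivity
  have δ0 : 0 < δ := by positivity
  refine ⟨gl δ (pcs B Q Qb r), fun y hy => ?_, fun y h1 h2 =>
    H.inn δ δ0 _ y h1 (mem_ball_iff_norm.1 h2)⟩
  obtain ⟨γ, a, z, hz, rfl⟩ := C.exists_pt y
  have hz : z ∈ C.cB (3 / 2) a := C.B_sub_cB _ a (C.B_mono (by norm_num) a hz)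
  obtain ⟨I, g⟩ := hρ γ a z hz hy
  have s7 : ∀ w ∈ closedBall z ρ, Q (C.pt γ a w) ≤ K := fun w hw =>
    hup γ a I w (g w hw).1 (G.sub a z hz (closedBall_subset_closedBall ρ1 hw))
  obtain ⟨z₁, b1, b2, b3⟩ := top hQ hc κ0 (div_pos r0 k0) l1 (by linarith) (by linarith) g s7
    (e1 γ a z hz hy) e2.le
  rw [e4, ← hD] at b3
  have m1 : z₁ ∈ closedBall z ρ := mem_closedBall_iff_norm.2 (by linarith)
  have m2 : z₁ ∈ closedBall z r₀ := closedBall_subset_closedBall ρ1 m1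
  have key : ∀ i, Act B.toTu R₄ i (C.pt γ a z) →
      Pk B (pcs B Q Qb r i) (C.pt γ a z) (log (Q (C.pt γ a z₁))) δ := by
    rintro (_ | b) hi
    · obtain ⟨c1, c2⟩ := G.lip γ a z hz hi.1 hi.2 z₁ m2
      have c3 : ∀ w ∈ closedBall z ρ, C.pt γ a w ∈ B.T →
          Qb (B.s (C.pt γ a w)) = Q (C.pt γ a w) / B.NT (C.pt γ a w) := fun w hw h =>
        eq_div_of_mul_eq (B.NT_pos _ h).ne' (hQ.tube γ a I w (g w hw).1 h).symm
      have c4 := hA₂ Qb _ (B.s (C.pt γ a z)) (B.s (C.pt γ a z₁)) r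
        (log (Q (C.pt γ a z₁)) - log (B.NT (C.pt γ a z))) (c * D + c) isOpen_ball hQ.pshb r0
        (closedBall_subset_ball' (by
          have := G.room
          rw [dist_eq_norm]
          nlinarith [hi.2, G.pos]))
        (c2.trans ((mul_le_mul_of_nonneg_left b1 k0.le).trans e5.le))
        (c3 z₁ m1 c1 ▸ exp_le_div (B.NT_pos _ c1) b2 (by positivity)
          ((g z₁ m1).2.2.2.2 hi.1 hi.2)) fun t ht => by
          obtain ⟨w, w1, rfl⟩ := G.opn γ a z hz hi.1 hi.2 t (closedBall_subset_closedBall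
            ((le_div_iff₀' k0).2 (by linarith)) ht)
          have w2 := w1.trans (mul_le_mul_of_nonneg_left (mem_closedBall_iff_norm.1 ht) k0.le)
          have w3 : w ∈ closedBall z ρ := mem_closedBall_iff_norm.2 (by linarith)
          have w4 := (G.lip γ a z hz hi.1 hi.2 w (closedBall_subset_closedBall ρ1 w3)).1
          exact c3 w w3 w4 ▸ div_le_exp (B.NT_pos _ w4) (b3 w w2) ((g w w3).2.2.2.2 hi.1 hi.2)
      exact pk_T hi.1 ⟨c4.1, c4.2.trans (by rw [hδ]; nlinarith)⟩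
    · obtain ⟨γ', z', hz', e⟩ := hi
      obtain ⟨J, g'⟩ := hρ γ' b z' hz' (e ▸ hy)
      obtain ⟨z₂, -, c1, c2⟩ := G.ch γ a γ' b z hz z' hz' e z₁ m2
      have c3 := c1.trans ((mul_le_mul_of_nonneg_left b1 k0.le).trans e5.le)
      have s3 := closedBall_subset_closedBall (x := z') e6
      have m3 : z₂ ∈ closedBall z' ρ := mem_closedBall_iff_norm.2 (by linarith)
      have c5 : exp (log (Q (C.pt γ a z₁)) - log (B.N b J z') - (c * D + c)) ≤ wt B Q γ' b J z₂ := by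
        rw [wt, ← c2]
        exact exp_le_div (B.N_pos b J _ (g' z₂ m3).1) b2 (by positivity) (g' z₂ m3).2.2.2.1
      have c4 := hA₁ (wt B Q γ' b J) _ z' z₂ r _ (c * D + c) (B.U_opn b J) (hQ.psh γ' b J) r0
        (fun w hw => (g' w (s3 hw)).1) c3 c5 fun w' hw' => by
          obtain ⟨w, -, w1, w2⟩ := G.ch γ' b γ a z' hz' z hz e.symm w'
            (closedBall_subset_closedBall ρ1 (s3 hw'))
          rw [wt, w2]
          exact div_le_exp (B.N_pos b J _ (g' w' (s3 hw')).1) (b3 w (w1.trans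
            (mul_le_mul_of_nonneg_left (mem_closedBall_iff_norm.1 hw') k0.le)))
            (g' w' (s3 hw')).2.2.2.1
      rw [e]
      exact pk_ch hQ r0 (fun w hw => (g' w (s3 hw)).1)
        ⟨z₂, mem_closedBall_iff_norm.2 c3, (exp_pos _).trans_le c5⟩
        ⟨c4.1, c4.2.trans (by rw [hδ]; nlinarith)⟩
  obtain ⟨f1, f2, f3⟩ := H.main δ δ0 (pcs B Q Qb r) _ _ fun i hi => ⟨(key i hi).sm, (key i hi).abs⟩
  have eA : (1 + K₁ * ((A₁ + A₂) * (D + 1))) * c = c + K₁ * δ := by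
    rw [hδ]
    ring
  rw [eA]
  refine ⟨⟨f1, fun γ' b J z' hz' e => ?_⟩, by
    linarith [(abs_le.1 f2).2, log_le_log b2 (s7 z₁ m1)]⟩
  have n1 := contDiffAt_const (c := (1 : ℝ)).mul ((B.N_sm b J z' hz').log (B.N_pos b J z' hz').ne')
  have f4 := f3 γ' b z' (Bn.mem4 hz') e _ n1.neg fun i hi => (key i hi).psd γ' b J z' hz' e
  have n2 := C.ρ_sm b z' (Bn.mem4 hz')
  refine ((SP.add (SP.const_mul ⟨n2, (C.ρ_pos b z' (Bn.mem4 hz')).posSemidef⟩ hc.le)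
    ⟨(contDiffAt_const.mul n2).add (n1.neg.add (f1 γ' b z' (Bn.mem4 hz') e)), f4⟩).congr
      (Eventually.of_forall fun w => ?_)).psd
  ring

end Vale.Agent.P284Y.X4
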