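import Vale.Agent.P284Y.X4.Dbl
import Vale.Agent.P284Y.Lib.GlC
import Vale.Agent.P284Z.J.JB

/-!
# P284Y, row X4: the global potential
-/

open scoped ContDiff Topology ComplexOrder
open Filter Set Function Metric MeasureTheory Real

noncomputable section

namespace Vale.Agent.P284Y.X4

open Vale.Agent.P272.K Vale.Agent.P284Z Vale.Agent.P284Z.K Vale.Agent.P284Y.Lib

namespace TT

/-- doubling at the scale `r` with the constant `D` -/
def Db {N : ℕ} (P : Cm N → ℝ) (L : Set (Cm N)) (k D r : ℝ) : Prop :=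
  ∀ z ∈ L, ∃ z₁, ‖z₁ - z‖ ≤ r / k ∧ 0 < P z₁ ∧ log (P z₁) ≤ D ∧
    ∀ w, ‖w - z‖ ≤ 3 * k * r → P w ≤ exp (log (P z₁) + D)

theorem db {N : ℕ} {P : Cm N → ℝ} {U L : Set (Cm N)} {k : ℝ} (h : LPsh P U) (hU : IsOpen U)
    (h0 : ∀ᵐ w, w ∈ U → 0 < P w) (hL : IsCompact L) (hLU : L ⊆ U) (hk : 1 ≤ k) :
    ∀ᶠ D in atTop, ∀ᶠ r in 𝓝[>] (0 : ℝ), Db P L k D r := by
  obtain ⟨c, R, M, -, R0, -, h1⟩ := uni h hU h0 hL hLU
  have k0 := one_pos.trans_le hk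
  have l1 : 1 ≤ 3 * k ^ 2 := by nlinarith
  filter_upwards [eventually_ge_atTop (log M), eventually_ge_atTop (log (3 * k ^ 2) * c)] with
    D h2 h3
  filter_upwards [Ioc_mem_nhdsGT (show 0 < R / (3 * k) by positivity)] with r hr z hz
  have r1 : 3 * k * r ≤ R := by
    rw [mul_comm]
    exact (le_div_iff₀ (by positivity)).1 hr.2
  have r2 : r / k ≤ R / 2 := (div_le_self hr.1.le hk).trans (by nlinarith [hr.1])
  have e : 3 * k ^ 2 * (r / k) = 3 * k * r := by field_simp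
  obtain ⟨-, h4, h5⟩ := h1 z hz
  obtain ⟨z₁, m1, m2, m3⟩ := h5 _ (div_pos hr.1 k0) r2
  refine ⟨z₁, mem_closedBall_iff_norm.1 m1, m2, (log_le_log m2 (h4 _ (closedBall_subset_closedBall
    (by linarith) m1))).trans h2, fun w hw => (m3 _ l1 (e.trans_le r1) w
      (mem_closedBall_iff_norm.2 (hw.trans_eq e.symm))).trans ?_⟩
  rw [exp_add, exp_log m2, mul_comm, rpow_def_of_pos (one_pos.trans_le l1)]
  exact mul_le_mul_of_nonneg_left (exp_le_exp.2 h3) m2.le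

theorem ev_exp (K : ℝ) : ∀ᶠ D in atTop, ∀ x y : ℝ, 0 ≤ y → x ≤ K * y → x ≤ exp D * y :=
  (tendsto_exp_atTop.eventually_ge_atTop K).mono fun _ h _ _ h1 h2 =>
    h2.trans (mul_le_mul_of_nonneg_right h h1)

theorem lo {x y D : ℝ} (hD : 0 ≤ D) (hx : 0 < x) (h : x ≤ exp D * y) :
    exp (log x - 2 * D) ≤ y := by
  refine (exp_le_exp.2 (show _ ≤ log x - D by linarith)).trans ?_
  rwa [exp_sub, exp_log hx, div_le_iff₀ (exp_pos D), mul_comm]

theorem hi {x y v D : ℝ} (h : x ≤ exp D * y) (h' : y ≤ exp (v + D)) : x ≤ exp (v + 2 * D) := by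
  refine h.trans ((mul_le_mul_of_nonneg_left h' (exp_pos D).le).trans_eq ?_)
  rw [← exp_add]
  congr 1
  ring

end TT

open TT in
theorem stT : StT := by
  intro hGeo hGl n p Γ E _ _ _ _ C U P H hP R₃ h3 h3R
  set R₄ := (R₃ + U.R) / 2
  have h34 : R₃ < R₄ := left_lt_add_div_two.2 h3R
  have h4R : R₄ < U.R := add_div_two_lt_right.2 h3R
  obtain ⟨K, r₀, g⟩ := hGeo n p Γ E C U R₄ h4R
  obtain ⟨K', gl, G⟩ := hGl n p Γ E C U R₃ R₄ h3 h34 h4R
  obtain ⟨A₁, a1, b1⟩ := brk n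
  obtain ⟨A₂, a2, b2⟩ := brk p
  obtain ⟨K₁, c1⟩ := hP.ch
  obtain ⟨K₂, c2⟩ := hP.tube _ g.room
  have k1 := g.one_le
  have r0 := g.pos
  have s1 : ∀ a, C.B (7 / 4) a ⊆ C.B 2 a := fun a => C.B_mono (by norm_num) a
  have s2 : ∀ a, C.cB (3 / 2) a ⊆ C.B 2 a := fun a => C.cB_sub_B (by norm_num) a
  have s3 : ∀ a, C.cB (3 / 2) a ⊆ C.B 4 a := fun a => C.cB_sub_B (by norm_num) a
  obtain ⟨D, ⟨⟨⟨⟨d1, d2⟩, e1⟩, e2⟩, D1⟩⟩ := (((((eventually_all.2 fun a => db (hP.psh a)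
    (C.isOpen_B 2 a) (hP.pos a) (C.isCompact_cB (3 / 2) a) (s2 a) k1).and (db hP.pshb isOpen_ball
    hP.posb (isCompact_closedBall U.t₀ R₄) (closedBall_subset_ball h4R) le_rfl)).and
    (ev_exp K₁)).and (ev_exp K₂)).and (eventually_gt_atTop 0)).exists
  set δ := (A₁ + A₂) * (2 * D) with hδ
  have δ1 : A₁ * (2 * D) ≤ δ := by nlinarith
  have δ2 : A₂ * (2 * D) ≤ δ := by nlinarith
  have δ0 : 0 < δ := by positivity
  have δ3 := (mul_pos G.pos δ0).le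
  refine ⟨K' * δ, D + K' * δ + δ, δ3, ?_⟩
  filter_upwards [eventually_all.2 d1, d2, Ioc_mem_nhdsGT (show 0 < r₀ / (3 * K) by positivity)]
    with r d3 d4 hr
  have q0 := hr.1
  have q1 : 3 * K * r ≤ r₀ := by
    rw [mul_comm]
    exact (le_div_iff₀ (by positivity)).1 hr.2
  have q2 : 3 * r ≤ 3 * K * r := by nlinarith
  have q3 : r₀ ≤ K * r₀ := le_mul_of_one_le_left r0.le k1
  have q4 : r / K ≤ r := div_le_self q0.le k1
  have q5 : ∀ x, x ≤ r / K → K * x ≤ r := fun x h => by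
    rwa [le_div_iff₀ (by positivity), mul_comm] at h
  have q6 : ∀ x, x ≤ 3 * r → K * x ≤ 3 * K * r := fun x h => by nlinarith
  have sb : ∀ τ, ‖τ - U.t₀‖ ≤ R₄ → ∀ t, ‖t - τ‖ ≤ 3 * r → ‖t - U.t₀‖ ≤ R₄ + K * r₀ :=
    fun τ h t h' => by linarith [norm_sub_le_norm_sub_add_norm_sub t τ U.t₀]
  have sb' : ∀ τ, ‖τ - U.t₀‖ ≤ R₄ → closedBall τ (3 * r) ⊆ ball U.t₀ U.R := fun τ h t ht =>
    mem_ball_iff_norm.2 ((sb τ h t (mem_closedBall_iff_norm.1 ht)).trans_lt g.room)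
  set f : Option C.I → E → ℝ := fun i =>
    i.elim (fun y => cl r H (U.s y)) fun b => loc C b fun _ => cl r (P b)
  have main : ∀ γ a, ∀ z ∈ C.cB (3 / 2) a, ∃ z₁, ‖z₁ - z‖ ≤ r ∧ 0 < P a z₁ ∧ log (P a z₁) ≤ D ∧
      P a z ≤ exp (log (P a z₁) + D) ∧ ∀ i, Act U R₄ i (C.pt γ a z) →
      (∀ γ' c, ∀ x ∈ C.B 4 c, C.pt γ' c x = C.pt γ a z → SP (fun w => f i (C.pt γ' c w)) x) ∧
      |f i (C.pt γ a z) - log (P a z₁)| ≤ δ := fun γ a z hz => by
    obtain ⟨z₁, m1, m2, m3, m4⟩ := d3 a z hz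
    have m5 : z₁ ∈ closedBall z r₀ := mem_closedBall_iff_norm.2 (by linarith)
    have m6 := g.sub a z hz m5
    refine ⟨z₁, m1.trans q4, m2, m3, m4 z (by rw [sub_self, norm_zero]; linarith), ?_⟩
    rintro (_ | b) hi'
    · obtain ⟨h1, h2⟩ := hi'
      obtain ⟨h4, h5⟩ := g.lip γ a z hz h1 h2 z₁ m5
      have h6 := h5.trans (q5 _ m1)
      obtain ⟨h7, h8⟩ := b2 H _ _ _ r (log (P a z₁)) (2 * D) isOpen_ball hP.pshb q0 (sb' _ h2) h6
        (lo D1.le m2 (e2 _ _ (hP.pshb.1 _ (U.mem _ h4))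
          (c2 γ a z₁ m6 h4 (sb _ h2 _ (by linarith))).1)) fun t ht => by
          have k2 := mem_closedBall_iff_norm.1 ht
          obtain ⟨w, k3, rfl⟩ := g.opn γ a z hz h1 h2 t (mem_closedBall_iff_norm.2
            (k2.trans ((le_div_iff₀ (by positivity)).2 (by linarith))))
          have k4 := k3.trans (q6 _ k2)
          have k5 : w ∈ closedBall z r₀ := mem_closedBall_iff_norm.2 (k4.trans q1)
          have k6 := g.sub a z hz k5
          exact hi (e2 _ _ ((hP.psh a).1 w (s1 a k6))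
            (c2 γ a w k6 (g.lip γ a z hz h1 h2 w k5).1 (sb _ h2 _ k2)).2) (m4 w k4)
      exact ⟨fun γ' c x hx e => SP.comp jb (s := fun w => U.s (C.pt γ' c w)) (by rwa [e])
        (U.sub.hol γ' c x hx (e ▸ h1)), h8.trans δ2⟩
    · obtain ⟨γ', z', hz', e⟩ := hi'
      obtain ⟨w₁, h1, h2, h4⟩ := g.ch γ a γ' b z hz z' hz' e z₁ m5
      have h5 : closedBall z' (3 * r) ⊆ closedBall z' r₀ :=
        closedBall_subset_closedBall (by linarith)
      obtain ⟨h7, h8⟩ := b1 (P b) _ z' w₁ r (log (P a z₁)) (2 * D) (C.isOpen_B 2 b) (hP.psh b) q0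
        (h5.trans ((g.sub b z' hz').trans (s1 b))) (h2.trans (q5 _ m1))
        (lo D1.le m2 (e1 _ _ ((hP.psh b).1 _ (s1 b h1))
          (c1 γ a γ' b z₁ (s1 a m6) w₁ (s1 b h1) h4))) fun w' hw' => by
          obtain ⟨w, k1, k2, k3⟩ := g.ch γ' b γ a z' hz' z hz e.symm w' (h5 hw')
          exact hi (e1 _ _ ((hP.psh a).1 w (s1 a k1)) (c1 γ' b γ a w'
            (s1 b (g.sub b z' hz' (h5 hw'))) w (s1 a k1) k3))
            (m4 w (k2.trans (q6 _ (mem_closedBall_iff_norm.1 hw'))))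
      refine ⟨fun γ'' c x hx e' => ?_, ?_⟩
      · obtain ⟨s, k1, rfl, k3, -⟩ := two_charts C hx (s3 b hz') (e'.trans e)
        refine (h7.comp jb k1).congr (k3.mono fun w hw => ?_)
        beta_reduce
        rw [hw.2]
        exact loc_pt C (f := fun _ => cl r (P b)) hw.1
      · rw [e, show f (some b) (C.pt γ' b z') = cl r (P b) z' from
          loc_pt C (f := fun _ => cl r (P b)) (s3 b hz')]
        exact h8.trans δ1
  have key : ∀ γ a, ∀ z ∈ C.cB (3 / 2) a, ∃ z₁, ‖z₁ - z‖ ≤ r ∧ 0 < P a z₁ ∧ log (P a z₁) ≤ D ∧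
      P a z ≤ exp (log (P a z₁) + D) ∧ C.SmAt (gl δ f) (C.pt γ a z) ∧
      |gl δ f (C.pt γ a z) - log (P a z₁)| ≤ K' * δ ∧ ∀ γ' c, ∀ x ∈ C.B 4 c,
      C.pt γ' c x = C.pt γ a z → (C.om (K' * δ) (gl δ f) γ' c x).PosSemidef := fun γ a z hz => by
    obtain ⟨z₁, m1, m2, m3, m4, m5⟩ := main γ a z hz
    obtain ⟨h1, h2, h4⟩ := G.main δ δ0 f _ _ fun i h =>
      ⟨fun γ' c x hx e => ((m5 i h).1 γ' c x hx e).sm, (m5 i h).2⟩
    refine ⟨z₁, m1, m2, m3, m4, h1, h2, fun γ' c x hx e => ?_⟩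
    have := h4 γ' c x hx e (fun _ => 0) contDiffAt_const fun i h => by
      simpa only [zero_add] using ((m5 i h).1 γ' c x hx e).psd
    simp only [zero_add] at this
    exact this
  have all : ∀ y, ∃ γ a, ∃ z ∈ C.cB (3 / 2) a, y = C.pt γ a z := fun y => by
    obtain ⟨γ, a, z, hz, e⟩ := C.exists_pt y
    exact ⟨γ, a, z, C.B_sub_cB _ a (C.B_mono (by norm_num) a hz), e⟩
  refine ⟨gl δ f, fun y => ?_, fun γ' c x hx _ => ?_, fun y => ?_, fun γ a z hz h0 => ?_,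
    fun γ a z hz => ?_, cl r H, fun τ hτ => ?_,
    fun y hy h => G.inn δ δ0 f y hy (mem_ball_iff_norm.1 h)⟩
  · obtain ⟨γ, a, z, hz, rfl⟩ := all y
    obtain ⟨-, -, -, -, -, h, -⟩ := key γ a z hz
    exact h
  · obtain ⟨γ, a, z, hz, e⟩ := all (C.pt γ' c x)
    obtain ⟨-, -, -, -, -, -, -, h⟩ := key γ a z hz
    exact h γ' c x hx e
  · obtain ⟨γ, a, z, hz, rfl⟩ := all y
    obtain ⟨z₁, -, -, m3, -, -, h, -⟩ := key γ a z hz
    linarith [(abs_le.1 h).2]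
  · obtain ⟨z₁, -, -, -, m4, -, h, -⟩ := key γ a z hz
    linarith [(abs_le.1 h).1, (log_le_iff_le_exp h0).2 m4]
  · obtain ⟨z₁, m1, m2, -, -, -, h, -⟩ := key γ a z hz
    exact ⟨z₁, mem_closedBall_iff_norm.2 m1, m2, by linarith [(abs_le.1 h).2]⟩
  · have h1 := (mem_ball_iff_norm.1 hτ).le.trans h34.le
    obtain ⟨τ₁, m1, m2, -, m4⟩ := d4 τ (mem_closedBall_iff_norm.2 h1)
    rw [div_one] at m1
    rw [mul_one] at m4
    obtain ⟨h7, h8⟩ := b2 H _ τ τ₁ r (log (H τ₁)) D isOpen_ball hP.pshb q0 (sb' τ h1) m1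
      ((exp_le_exp.2 (sub_le_self _ D1.le)).trans_eq (exp_log m2))
      fun t ht => m4 t (mem_closedBall_iff_norm.1 ht)
    refine ⟨h7.sm, fun τ' h h0 => ?_⟩
    have := (log_le_iff_le_exp h0).2 (m4 τ' ((mem_closedBall_iff_norm.1 h).trans (by linarith)))
    nlinarith [(abs_le.1 h8).1]

end Vale.Agent.P284Y.X4
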