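import Vale.Agent.P284Y.X4.Geo
import Vale.Agent.P284Y.X4.Gl
import Vale.Agent.P284Y.X4.M
import Vale.Agent.P284Y.X4.B
import Vale.Agent.P284Y.X4.T
import Vale.Agent.P284Y.X4.S
import Vale.Agent.P284Y.X4.A
import Vale.Agent.P284Y.X4.F

/-!
# P284Y, row X4
-/

namespace Vale.Agent.P284Y.X4

/-- **X4** -/
theorem stX4 : StX4 := stF stT stM stS stA stB stGeo stGl

end Vale.Agent.P284Y.X4
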