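import Vale.Agent.P284Y.X4.Dbl
import Vale.Agent.P284Y.Lib.GlC
import Vale.Agent.P284Z.J.JB

/-!
# P284Y, row X4: good frames and the local pieces of the smooth weight
-/

open scoped ContDiff Topology ComplexOrder
open Filter Set Function Metric MeasureTheory Real

noncomputable section

namespace Vale.Agent.P284Y.X4

open Vale.Agent.P272.K Vale.Agent.P284Z Vale.Agent.P284Z.K Vale.Agent.P284Y.Lib

variable {n p : ℕ} {Γ E : Type} [Group Γ] [TopologicalSpace E] [MulAction Γ E] {C : Cov n Γ E}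

theorem fin_sh (C : Cov n Γ E) {L : Set E} (hL : IsCompact L) {k : ℝ} (hk : k < 4) :
    {γ : Γ | ∃ a, ∃ z ∈ C.cB k a, C.pt γ a z ∈ L}.Finite := by
  refine (C.proper (L ∪ ⋃ a, C.pt 1 a '' C.cB k a) (hL.union (isCompact_iUnion fun a =>
    C.isCompact_image_pt 1 (C.isCompact_cB k a) (C.cB_sub_B hk a)))).subset ?_
  rintro γ ⟨a, z, h1, h2⟩
  exact ⟨C.pt 1 a z, Or.inr (mem_iUnion.2 ⟨a, z, h1, rfl⟩), Or.inl (C.pt_eq γ a z ▸ h2)⟩

/-- uniformity on the pieces of a compact set -/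
theorem ev_cpt [T2Space E] {L : Set E} (hL : IsCompact L) {k : ℝ} (hk : k < 4)
    {Φ : ℝ → Γ → C.I → Cm n → Prop} (h : ∀ γ a, ∀ z ∈ C.cB k a, C.pt γ a z ∈ L →
      ∀ᶠ q : ℝ × Cm n in 𝓝 (0, z), Φ q.1 γ a q.2) :
    ∀ᶠ ρ in 𝓝 (0 : ℝ), ∀ γ a, ∀ z ∈ C.cB k a, C.pt γ a z ∈ L → Φ ρ γ a z := by
  have h1 : ∀ᶠ ρ in 𝓝 (0 : ℝ), ∀ γ ∈ {γ : Γ | ∃ a, ∃ z ∈ C.cB k a, C.pt γ a z ∈ L}, ∀ a,
      ∀ z ∈ C.cB k a ∩ C.pt γ a ⁻¹' L, Φ ρ γ a z :=
    (eventually_all_finite (fin_sh C hL hk)).2 fun γ _ => eventually_all.2 fun a =>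
      ((C.isCompact_cB k a).of_isClosed_subset
        (((C.continuousOn_pt γ a).mono (C.cB_sub_B hk a)).preimage_isClosed_of_isClosed
          isClosed_closedBall hL.isClosed)
        inter_subset_left).eventually_forall_of_forall_eventually fun z hz => h γ a z hz.1 hz.2
  exact h1.mono fun ρ hρ γ a z h2 h3 => hρ γ ⟨a, z, h2, h3⟩ a z ⟨h2, h3⟩

theorem ev_ball {z : Cm n} {Φ : Cm n → Prop} (h : ∀ᶠ w in 𝓝 z, Φ w) :
    ∀ᶠ q : ℝ × Cm n in 𝓝 (0, z), Φ q.2 ∧ ∀ w ∈ closedBall q.2 q.1, Φ w := by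
  obtain ⟨ε, h0, hε⟩ := nhds_basis_ball.eventually_iff.1 h
  filter_upwards [continuousAt_snd.eventually h, continuousAt_fst.eventually
    (gt_mem_nhds (half_pos h0)), continuousAt_snd.eventually (ball_mem_nhds z (half_pos h0))]
    with q h1 h2 h3
  exact ⟨h1, fun w hw => hε (closedBall_subset_ball' (by linarith [mem_ball.1 h3]) hw)⟩

theorem ev_abs {f : Cm n → ℝ} {z : Cm n} (hf : ContinuousAt f z) {c : ℝ} (hc : 0 < c) :
    ∀ᶠ w in 𝓝 z, |f w - f z| ≤ c / 2 :=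
  hf.eventually (closedBall_mem_nhds (f z) (half_pos hc))

variable (B : Bn C p)

/-- the frame `I` is good at `z` at the scale `ρ` -/
def Gd (R₄ c ρ : ℝ) (γ : Γ) (a : C.I) (I : B.F) (z : Cm n) : Prop :=
  ∀ w ∈ closedBall z ρ, w ∈ B.U a I ∧ ρ ≤ B.N a I w ∧ ρ * B.N a I w ≤ 1 ∧
    |log (B.N a I w) - log (B.N a I z)| ≤ c ∧ (C.pt γ a z ∈ B.T → ‖B.s (C.pt γ a z) - B.t₀‖ ≤ R₄ →
      |log (B.NT (C.pt γ a w)) - log (B.NT (C.pt γ a z))| ≤ c)

variable {B} {γ γ' : Γ} {a b : C.I} {I J : B.F} {z z' : Cm n} {r : ℝ} {Q : E → ℝ}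
  {Qb : Cm p → ℝ}

theorem Bn.mem4 (hz : z ∈ B.U a I) : z ∈ C.B 4 a := C.B_mono (by norm_num) a (B.U_sub a I hz)

theorem leb [T2Space E] {L : Set E} (hL : IsCompact L) {R₄ c : ℝ} (hR : R₄ < B.R) (hc : 0 < c)
    (h : ∀ γ a, ∀ z ∈ C.cB (3 / 2) a, C.pt γ a z ∈ L → ∃ I, z ∈ B.U a I) :
    ∀ᶠ ρ in 𝓝 (0 : ℝ), ∀ γ a, ∀ z ∈ C.cB (3 / 2) a, C.pt γ a z ∈ L → ∃ I, Gd B R₄ c ρ γ a I z := by
  refine ev_cpt hL (by norm_num) fun γ a z h1 h2 => ?_
  obtain ⟨I, hI⟩ := h γ a z h1 h2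
  have c1 := (B.N_sm a I z hI).continuousAt
  have p1 := B.N_pos a I z hI
  have h3 : ∀ᶠ w in 𝓝 z, C.pt γ a w ∈ {y ∈ B.T | ‖B.s y - B.t₀‖ ≤ R₄}ᶜ ∨ ∀ᶠ q : ℝ × Cm n in 𝓝 (0, z),
      ∀ w ∈ closedBall q.2 q.1, |log (B.NT (C.pt γ a w)) - log (B.NT (C.pt γ a q.2))| ≤ c := by
    by_cases h4 : C.pt γ a z ∈ {y ∈ B.T | ‖B.s y - B.t₀‖ ≤ R₄}
    · refine Eventually.of_forall fun _ => Or.inr ((ev_ball (ev_abs ((B.NT_sm _ h4.1 γ a z
        (Bn.mem4 hI) rfl).continuousAt.log (B.NT_pos _ h4.1).ne') hc)).mono fun q hq w hw => ?_)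
      linarith [abs_sub_le (log (B.NT (C.pt γ a w))) (log (B.NT (C.pt γ a z)))
        (log (B.NT (C.pt γ a q.2))), hq.2 w hw, (abs_sub_comm _ _).trans_le hq.1]
    · exact ((C.continuousAt_pt (Bn.mem4 hI) γ).eventually
        ((B.cpt R₄ hR).isClosed.isOpen_compl.mem_nhds h4)).mono fun _ => Or.inl
  have h5 : ∀ᶠ q : ℝ × Cm n in 𝓝 (0, z), C.pt γ a q.2 ∈ B.T → ‖B.s (C.pt γ a q.2) - B.t₀‖ ≤ R₄ →
      ∀ w ∈ closedBall q.2 q.1, |log (B.NT (C.pt γ a w)) - log (B.NT (C.pt γ a q.2))| ≤ c := by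
    rcases eventually_or_distrib_right.1 h3 with h4 | h4
    · exact (continuousAt_snd.eventually h4).mono fun q hq k1 k2 => (hq ⟨k1, k2⟩).elim
    · exact h4.mono fun q hq _ _ => hq
  filter_upwards [h5, ev_ball (((B.U_opn a I).eventually_mem hI).and ((c1.eventually
    (lt_mem_nhds (half_lt_self p1))).and ((c1.eventually (gt_mem_nhds (lt_add_one _))).and
      (ev_abs (c1.log p1.ne') hc)))), continuousAt_fst.eventually (gt_mem_nhds (half_pos p1)),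
    continuousAt_fst.eventually (gt_mem_nhds (inv_pos.2 (add_pos p1 one_pos)))] with q k1 k2 k3 k4
  refine ⟨I, fun w hw => ?_⟩
  obtain ⟨a1, a2, a3, a4⟩ := k2.2 w hw
  refine ⟨a1, (k3.trans a2).le, ?_, ?_, fun b1 b2 => k1 b1 b2 w hw⟩
  · exact (mul_le_mul k4.le a3.le (B.N_pos a I w a1).le (by positivity)).trans_eq
      (inv_mul_cancel₀ (add_pos p1 one_pos).ne')
  · linarith [abs_sub_le (log (B.N a I w)) (log (B.N a I z)) (log (B.N a I q.2)),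
      (abs_sub_comm _ _).trans_le k2.1.2.2.2]

theorem sp_of_unit {M : Cm n → ℝ} (hz : z ∈ B.U a I) (h : ∃ u : Cm n → ℂ, AnalyticAt ℂ u z ∧
    u z ≠ 0 ∧ ∀ᶠ w in 𝓝 z, M w = ‖u w‖ ^ 2 * B.N a I w) :
    SP (fun w => log (M w) - log (B.N a I w)) z := by
  obtain ⟨u, h1, h2, h3⟩ := h
  refine (sp_log jb h1 h2).congr ?_
  filter_upwards [h3, h1.continuousAt.eventually_ne h2, (B.U_opn a I).eventually_mem hz]
    with w k1 k2 k3
  rw [k1, log_mul (pow_ne_zero 2 (norm_ne_zero_iff.2 k2)) (B.N_pos a I w k3).ne', add_sub_cancel_right]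

theorem psh_same (a : C.I) (I J : B.F) :
    Psh (fun w => log (B.N a J w) - log (B.N a I w)) (B.U a I ∩ B.U a J) :=
  psh_of_cHess fun z hz => by
    obtain ⟨u, h1, h2, h3⟩ := B.N_ch 1 a I 1 a J z hz.1 z hz.2 rfl
    have := sp_of_unit (M := B.N a J) hz.1 ⟨u, h1, h2, (h3.and ((C.isOpen_B 4 a).eventually_mem
      (Bn.mem4 hz.1))).mono fun w hw => by rw [← hw.1, C.co_pt hw.2]⟩
    exact ⟨two this.sm, this.psd⟩

variable (B Q) in
/-- the weight in the frame `I` -/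
def wt (γ : Γ) (a : C.I) (I : B.F) (w : Cm n) : ℝ := Q (C.pt γ a w) / B.N a I w

variable (B Q) in
/-- the convolution of the weight in the frame `I` -/
def cw (r : ℝ) (γ : Γ) (a : C.I) (I : B.F) (z : Cm n) : ℝ :=
  cl r (wt B Q γ a I) z + log (B.N a I z)

theorem cw_eq (hQ : Wt B Q Qb) (hr : 0 < r) (hI : closedBall z r ⊆ B.U a I)
    (hJ : closedBall z r ⊆ B.U a J) (h0 : ∃ w ∈ closedBall z r, 0 < wt B Q γ a I w) :
    cw B Q r γ a J z = cw B Q r γ a I z := by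
  obtain ⟨i1, i2⟩ := int_log (B.U_opn a I) (hQ.psh γ a I) hr hI h0
  have o := (B.U_opn a J).inter (B.U_opn a I)
  have hc : ContinuousOn (fun w => log (B.N a I w) - log (B.N a J w)) (B.U a J ∩ B.U a I) :=
    fun w hw => (((B.N_sm a I w hw.2).continuousAt.log (B.N_pos a I w hw.2).ne').sub
      ((B.N_sm a J w hw.1).continuousAt.log (B.N_pos a J w hw.1).ne')).continuousWithinAt
  have h1 := cv_eq_self (μ := volume) hr o hc (psh_same a J I)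
    (by simpa only [neg_sub, inter_comm (B.U a J)] using psh_same a I J) (subset_inter hJ hI)
  have h2 := cv_add hr i1 ((lc_cont hc).ball (subset_inter hJ hI))
  have h3 : cl r (wt B Q γ a J) z = cv volume r (fun w => log (Q (C.pt γ a w) / B.N a I w) +
      (log (B.N a I w) - log (B.N a J w))) z := cv_congr_ae hr (i2.mono fun w hw hw' => by
    have k1 := B.N_pos a I w (hI hw')
    have k2 := B.N_pos a J w (hJ hw')
    have k3 := ((div_pos_iff_of_pos_right k1).1 (hw hw')).ne'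
    rw [wt, log_div k3 k2.ne', log_div k3 k1.ne']
    ring)
  rw [cw, cw, h3, h2, h1]
  change _ = cv volume r (fun w => log (Q (C.pt γ a w) / B.N a I w)) z + _
  ring

variable (B Q) in
open Classical in
/-- the piece in the chart `a` of the sheet `γ` -/
def pc (r : ℝ) (a : C.I) (γ : Γ) (z : Cm n) : ℝ :=
  if h : ∃ I, closedBall z r ⊆ B.U a I then cw B Q r γ a h.choose z else 0

theorem pc_ev (hQ : Wt B Q Qb) (hr : 0 < r) (hI : closedBall z (3 * r) ⊆ B.U a I)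
    (h0 : ∃ w ∈ closedBall z r, 0 < wt B Q γ a I w) : pc B Q r a γ =ᶠ[𝓝 z] cw B Q r γ a I := by
  have h1 := (int_log (B.U_opn a I) (hQ.psh γ a I) (by positivity) hI (h0.imp fun w hw =>
    ⟨closedBall_subset_closedBall (by linarith) hw.1, hw.2⟩)).2
  filter_upwards [closedBall_mem_nhds z hr] with x hx
  have s : closedBall x r ⊆ closedBall z (3 * r) :=
    closedBall_subset_closedBall' (by linarith [mem_closedBall.1 hx])
  have h2 : ∃ I, closedBall x r ⊆ B.U a I := ⟨I, s.trans hI⟩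
  rw [pc, dif_pos h2]
  exact cw_eq hQ hr (s.trans hI) h2.choose_spec
    (exists_of_ae (closedBall_mem_nhds x hr) (h1.mono fun w hw hw' => hw (s hw')))

theorem an_co (hz : z ∈ C.B 4 a) (hz' : z' ∈ C.B 4 b) (h : C.pt γ a z = C.pt γ' b z') :
    AnalyticAt ℂ (fun w => C.co γ' b (C.pt γ a w)) z ∧ C.co γ' b (C.pt γ a z) = z' :=
  ⟨C.holOn_co γ' b γ a z hz (h ▸ C.pt_mem hz' γ'), by rw [h, C.co_pt hz']⟩

theorem loc_ev {F : Γ → Cm n → ℝ} {g : Cm n → ℝ} (hz : z ∈ C.B 4 a) (hz' : z' ∈ C.B 4 b)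
    (h : C.pt γ a z = C.pt γ' b z') (e : F γ' =ᶠ[𝓝 z'] g) :
    (fun w => loc C b F (C.pt γ a w)) =ᶠ[𝓝 z] fun w => g (C.co γ' b (C.pt γ a w)) := by
  obtain ⟨h1, h2⟩ := an_co hz hz' h
  filter_upwards [(C.continuousAt_pt hz γ).eventually ((C.ch γ' b).open_source.mem_nhds
    (h ▸ C.pt_mem hz' γ')), h1.continuousAt.eventually (h2.symm ▸ e :)] with w k1 k2
  rw [loc_of_mem C k1, k2]

theorem div_le_exp {q m v m₀ d c : ℝ} (hm : 0 < m) (hq : q ≤ exp (d + v)) (h : |log m - m₀| ≤ c) :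
    q / m ≤ exp (v - m₀ + (d + c)) := by
  rw [div_le_iff₀ hm, ← exp_log hm, ← exp_add]
  exact hq.trans (exp_le_exp.2 (by linarith [(abs_le.1 h).1]))

theorem exp_le_div {q m m₀ d c : ℝ} (hm : 0 < m) (hq : 0 < q) (hd : 0 ≤ d) (h : |log m - m₀| ≤ c) :
    exp (log q - m₀ - (d + c)) ≤ q / m := by
  rw [le_div_iff₀ hm, ← exp_log hm, ← exp_add, ← le_log_iff_exp_le hq]
  linarith [(abs_le.1 h).2]

end Vale.Agent.P284Y.X4
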