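import Vale.Agent.P284Y.X4.Defs
import Vale.Agent.P284Y.Lib.Cv2

/-!
# P284Y, row X4: statements of the pieces
-/

open scoped ContDiff Topology ComplexOrder ComplexConjugate ENNReal Matrix
open Filter Set Function Metric MeasureTheory

noncomputable section

namespace Vale.Agent.P284Y.X4

open Vale.Agent.P272.K Vale.Agent.P284.H608.K Vale.Agent.P284Z Vale.Agent.P284Z.J Vale.Agent.P284Z.L
  Vale.Agent.P284Y.X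

variable {n p : ℕ} {Γ E : Type} [Group Γ] [TopologicalSpace E] [MulAction Γ E]

/-- the convolution of `log P` at the scale `r` -/
def cl {N : ℕ} (r : ℝ) (P : Cm N → ℝ) : Cm N → ℝ := Lib.cv volume r fun w => Real.log (P w)

/-- a proper holomorphic submersion onto a ball -/
structure Tu (C : Cov n Γ E) (p : ℕ) where
  T : Set E
  s : E → Cm p
  t₀ : Cm p
  R : ℝ
  sub : Sub C s T
  mem : ∀ y ∈ T, s y ∈ ball t₀ R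
  cpt : ∀ r < R, IsCompact {y ∈ T | ‖s y - t₀‖ ≤ r}

variable {C : Cov n Γ E}

/-! ### uniform comparison of the balls -/

/-- the changes of coordinates and the submersion are uniformly Lipschitz and uniformly open -/
structure Geo (U : Tu C p) (R₄ K r₀ : ℝ) : Prop where
  one_le : 1 ≤ K
  pos : 0 < r₀
  room : R₄ + K * r₀ < U.R
  sub : ∀ a, ∀ z ∈ C.cB (3 / 2) a, closedBall z r₀ ⊆ C.B (7 / 4) a
  ch : ∀ γ a γ' b, ∀ z ∈ C.cB (3 / 2) a, ∀ z' ∈ C.cB (3 / 2) b, C.pt γ a z = C.pt γ' b z' →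
    ∀ w ∈ closedBall z r₀, ∃ w' ∈ C.B (7 / 4) b, ‖w' - z'‖ ≤ K * ‖w - z‖ ∧
      C.pt γ a w = C.pt γ' b w'
  lip : ∀ γ a, ∀ z ∈ C.cB (3 / 2) a, C.pt γ a z ∈ U.T → ‖U.s (C.pt γ a z) - U.t₀‖ ≤ R₄ →
    ∀ w ∈ closedBall z r₀, C.pt γ a w ∈ U.T ∧
      ‖U.s (C.pt γ a w) - U.s (C.pt γ a z)‖ ≤ K * ‖w - z‖
  opn : ∀ γ a, ∀ z ∈ C.cB (3 / 2) a, C.pt γ a z ∈ U.T → ‖U.s (C.pt γ a z) - U.t₀‖ ≤ R₄ →
    ∀ t ∈ closedBall (U.s (C.pt γ a z)) (r₀ / K), ∃ w, ‖w - z‖ ≤ K * ‖t - U.s (C.pt γ a z)‖ ∧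
      U.s (C.pt γ a w) = t

/-- **X4-Geo** -/
def StGeo : Prop :=
  ∀ (n p : ℕ) (Γ E : Type) [Group Γ] [TopologicalSpace E] [T2Space E] [MulAction Γ E]
    (C : Cov n Γ E) (U : Tu C p) (R₄ : ℝ), R₄ < U.R → ∃ K r₀, Geo U R₄ K r₀

/-! ### gluing -/

/-- the pieces which are active at `y`: the charts and the tube -/
def Act (U : Tu C p) (R₄ : ℝ) : Option C.I → E → Prop
  | none, y => y ∈ U.T ∧ ‖U.s y - U.t₀‖ ≤ R₄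
  | some a, y => ∃ γ, ∃ z ∈ C.cB (3 / 2) a, y = C.pt γ a z

/-- `gl δ f` glues the pieces `f i`, which differ by at most `2 δ` -/
structure Glt (U : Tu C p) (R₃ R₄ K : ℝ) (gl : ℝ → (Option C.I → E → ℝ) → E → ℝ) : Prop where
  pos : 0 < K
  inn : ∀ δ > (0 : ℝ), ∀ f, ∀ y ∈ U.T, ‖U.s y - U.t₀‖ < R₃ → gl δ f y = f none y
  main : ∀ δ > (0 : ℝ), ∀ f y (v : ℝ), (∀ i, Act U R₄ i y → C.SmAt (f i) y ∧ |f i y - v| ≤ δ) →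
    C.SmAt (gl δ f) y ∧ |gl δ f y - v| ≤ K * δ ∧ ∀ γ a, ∀ z ∈ C.B 4 a, C.pt γ a z = y →
      ∀ τ : Cm n → ℝ, ContDiffAt ℝ ∞ τ z →
        (∀ i, Act U R₄ i y → (cHess (fun w => τ w + f i (C.pt γ a w)) z).PosSemidef) →
        (cHess (fun w => K * δ * C.ρ a w + (τ w + gl δ f (C.pt γ a w))) z).PosSemidef

/-- **X4-Gl** -/
def StGl : Prop :=
  ∀ (n p : ℕ) (Γ E : Type) [Group Γ] [TopologicalSpace E] [T2Space E] [MulAction Γ E]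
    (C : Cov n Γ E) (U : Tu C p) (R₃ R₄ : ℝ), 0 < R₃ → R₃ < R₄ → R₄ < U.R →
    ∃ K gl, Glt U R₃ R₄ K gl

/-! ### the global potential -/

/-- comparable singular weights in the charts and on the base of the tube -/
structure PD (U : Tu C p) (P : C.I → Cm n → ℝ) (H : Cm p → ℝ) : Prop where
  psh : ∀ a, LPsh (P a) (C.B 2 a)
  pos : ∀ a, ∀ᵐ z, z ∈ C.B 2 a → 0 < P a z
  ch : ∃ K : ℝ, ∀ γ a γ' b, ∀ z ∈ C.B 2 a, ∀ z' ∈ C.B 2 b, C.pt γ a z = C.pt γ' b z' →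
    P a z ≤ K * P b z'
  pshb : LPsh H (ball U.t₀ U.R)
  posb : ∀ᵐ t, t ∈ ball U.t₀ U.R → 0 < H t
  tube : ∀ r < U.R, ∃ K : ℝ, ∀ γ a, ∀ z ∈ C.B (7 / 4) a, C.pt γ a z ∈ U.T →
    ‖U.s (C.pt γ a z) - U.t₀‖ ≤ r →
    P a z ≤ K * H (U.s (C.pt γ a z)) ∧ H (U.s (C.pt γ a z)) ≤ K * P a z

/-- `t` is a smooth approximation of `log P` at the scale `r` -/
structure TD (U : Tu C p) (P : C.I → Cm n → ℝ) (H : Cm p → ℝ) (R₃ A K r : ℝ) (t : E → ℝ) :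
    Prop where
  sm : ∀ y, C.SmAt t y
  psd : Psd C (C.om A t) univ
  le : ∀ y, t y ≤ K
  low : ∀ γ a, ∀ z ∈ C.cB (3 / 2) a, 0 < P a z → Real.log (P a z) - K ≤ t (C.pt γ a z)
  up : ∀ γ a, ∀ z ∈ C.cB (3 / 2) a, ∃ w ∈ closedBall z r, 0 < P a w ∧
    t (C.pt γ a z) - K ≤ Real.log (P a w)
  tube : ∃ tb : Cm p → ℝ, (∀ τ ∈ ball U.t₀ R₃, ContDiffAt ℝ ∞ tb τ ∧
      ∀ τ' ∈ closedBall τ r, 0 < H τ' → Real.log (H τ') - K ≤ tb τ) ∧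
    ∀ y ∈ U.T, U.s y ∈ ball U.t₀ R₃ → t y = tb (U.s y)

/-- **X4-T** -/
def StT : Prop := StGeo → StGl →
  ∀ (n p : ℕ) (Γ E : Type) [Group Γ] [TopologicalSpace E] [T2Space E] [MulAction Γ E]
    (C : Cov n Γ E) (U : Tu C p) (P : C.I → Cm n → ℝ) (H : Cm p → ℝ), PD U P H →
    ∀ R₃ : ℝ, 0 < R₃ → R₃ < U.R → ∃ A K : ℝ, 0 ≤ A ∧ ∀ᶠ r in 𝓝[>] (0 : ℝ), ∃ t, TD U P H R₃ A K r t

/-! ### the metric and the cut-off -/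

/-- the potential of the metric -/
def kap (K : ℝ) (t : E → ℝ) (y : E) : ℝ := -Real.log (1 + K - t y)

/-- the cut-off -/
def chi (ℓ κ : E → ℝ) (ν : ℝ) (y : E) : ℝ := Real.smoothTransition (2 - (ℓ y - κ y) / ν)

/-- **X4-M** -/
def StM : Prop :=
  ∀ (n : ℕ) (Γ E : Type) [Group Γ] [TopologicalSpace E] [T2Space E] [MulAction Γ E]
    (C : Cov n Γ E) (ℓ : E → ℝ), Exh C ℓ → ∃ K₂ : ℝ, 0 ≤ K₂ ∧ ∀ (A K : ℝ) (t : E → ℝ), 0 ≤ A →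
      (∀ y, C.SmAt t y) → Psd C (C.om A t) univ → (∀ y, t y ≤ K) →
      (∀ y, C.SmAt (kap K t) y) ∧ Psd C (C.om (A + 1) (kap K t) - C.om 1 fun _ => 0) univ ∧
      (∀ c, IsCompact {y | ℓ y - kap K t y ≤ c}) ∧ (Continuous fun y => ℓ y - kap K t y) ∧
      ∀ ν > (0 : ℝ), (∀ y, C.SmAt (chi ℓ (kap K t) ν) y) ∧ ∀ e : ℝ, K₂ / ν ^ 2 ≤ e →
        Psd C ((e : ℂ) • C.om (A + 1) (kap K t) -
          C.gg (chi ℓ (kap K t) ν) (chi ℓ (kap K t) ν)) univ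

/-! ### smooth weights of the line bundle -/

/-- a Hermitian line bundle: `N a I` and `NT` are the squares of the norms of the frames -/
structure Bn (C : Cov n Γ E) (p : ℕ) extends Tu C p where
  F : Type
  U : C.I → F → Set (Cm n)
  N : C.I → F → Cm n → ℝ
  NT : E → ℝ
  U_opn : ∀ a I, IsOpen (U a I)
  U_sub : ∀ a I, U a I ⊆ C.B 2 a
  N_sm : ∀ a I, ∀ z ∈ U a I, ContDiffAt ℝ ∞ (N a I) z
  N_pos : ∀ a I, ∀ z ∈ U a I, 0 < N a I z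
  N_ch : ∀ γ a I γ' b J, ∀ z ∈ U a I, ∀ z' ∈ U b J, C.pt γ a z = C.pt γ' b z' →
    ∃ u : Cm n → ℂ, AnalyticAt ℂ u z ∧ u z ≠ 0 ∧
      ∀ᶠ w in 𝓝 z, N b J (C.co γ' b (C.pt γ a w)) = ‖u w‖ ^ 2 * N a I w
  NT_sm : ∀ y ∈ T, C.SmAt NT y
  NT_pos : ∀ y ∈ T, 0 < NT y
  NT_ch : ∀ γ a I, ∀ z ∈ U a I, C.pt γ a z ∈ T → ∃ u : Cm n → ℂ, AnalyticAt ℂ u z ∧ u z ≠ 0 ∧
    ∀ᶠ w in 𝓝 z, NT (C.pt γ a w) = ‖u w‖ ^ 2 * N a I w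

/-- a singular weight with positive curvature, basic on the tube -/
structure Wt (B : Bn C p) (Q : E → ℝ) (Qb : Cm p → ℝ) : Prop where
  psh : ∀ γ a I, LPsh (fun w => Q (C.pt γ a w) / B.N a I w) (B.U a I)
  pshb : LPsh Qb (ball B.t₀ B.R)
  tube : ∀ γ a I, ∀ z ∈ B.U a I, C.pt γ a z ∈ B.T →
    Q (C.pt γ a z) = Qb (B.s (C.pt γ a z)) * B.NT (C.pt γ a z)

/-- `f` is a smooth weight of the `k`-th power at `y`, with curvature at least `-A ω` -/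
structure Cu (B : Bn C p) (A k : ℝ) (f : E → ℝ) (y : E) : Prop where
  sm : C.SmAt f y
  psd : ∀ γ a I, ∀ z ∈ B.U a I, C.pt γ a z = y → (cHess (fun w => A * C.ρ a w +
    (f (C.pt γ a w) - k * Real.log (B.N a I w))) z).PosSemidef

/-- **X4-S** -/
def StS : Prop := StGeo → StGl →
  ∀ (n p : ℕ) (Γ E : Type) [Group Γ] [TopologicalSpace E] [T2Space E] [MulAction Γ E]
    (C : Cov n Γ E) (B : Bn C p) (R₃ : ℝ), 0 < R₃ → R₃ < B.R → ∃ A > (0 : ℝ), ∀ c > (0 : ℝ),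
    ∀ (L : Set E) (Q : E → ℝ) (Qb : Cm p → ℝ) (K : ℝ), IsCompact L → Wt B Q Qb →
      (∀ γ a, ∀ z ∈ C.cB (3 / 2) a, C.pt γ a z ∈ L → ∃ I, z ∈ B.U a I) →
      (∀ γ a I, ∀ z ∈ B.U a I, z ∈ C.B (7 / 4) a → Q (C.pt γ a z) ≤ K) →
      (∃ κ > (0 : ℝ), ∀ᶠ r in 𝓝[>] (0 : ℝ), ∀ γ a, ∀ z ∈ C.cB (3 / 2) a, C.pt γ a z ∈ L →
        ∃ w ∈ closedBall z r, ∀ I, w ∈ B.U a I → κ * r ^ c ≤ Q (C.pt γ a w)) →
      ∀ᶠ r in 𝓝[>] (0 : ℝ), ∃ f : E → ℝ, (∀ y ∈ L, Cu B (A * c) 1 f y ∧ f y ≤ Real.log K + A * c) ∧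
        ∀ y ∈ B.T, B.s y ∈ ball B.t₀ R₃ → f y = cl r Qb (B.s y) + Real.log (B.NT y)

/-! ### the adapter -/

/-- the tube of `X` -/
def tu (X : XL C p) : Tu C p := ⟨X.T, X.s, X.t₀, X.R, X.sub, X.mem, X.cpt⟩

/-- the square of the norm of a form -/
def nm (C : Cov n Γ E) (a : C.I) (z : Cm n) (θ : Af n p) : ℝ := (hn (cHess (C.ρ a) z) θ θ).re

/-- the weights as functions on `E` -/
structure AD (X : XL C p) where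
  NT : E → ℝ
  P : E → ℝ
  W : E → ℝ
  N_sm : ∀ a I, ∀ z ∈ X.U a I, ContDiffAt ℝ ∞ (fun w => nm C a w (X.θ a I w)) z
  N_pos : ∀ a I, ∀ z ∈ X.U a I, 0 < nm C a z (X.θ a I z)
  N_ch : ∀ g a b I J z, C.Ov g a b z → z ∈ X.U a I → C.tr g a b z ∈ X.U b J →
    nm C b (C.tr g a b z) (X.θ b J (C.tr g a b z)) =
      ‖X.θ b J (C.tr g a b z) (trv C g a b z (eb I))‖ ^ 2 * nm C a z (X.θ a I z)
  u_an : ∀ g a b I J z, C.Ov g a b z → C.tr g a b z ∈ X.U b J →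
    AnalyticAt ℂ (fun w => X.θ b J (C.tr g a b w) (trv C g a b w (eb I))) z
  NT_sm : ∀ y ∈ X.T, C.SmAt NT y
  NT_pos : ∀ y ∈ X.T, 0 < NT y
  NT_ch : ∀ γ a I, ∀ z ∈ X.U a I, C.pt γ a z ∈ X.T →
    NT (C.pt γ a z) = ‖ds C X.s γ a z (eb I)‖ ^ 2 * nm C a z (X.θ a I z)
  ds_an : ∀ γ a I, ∀ z ∈ C.B 4 a, C.pt γ a z ∈ X.T →
    AnalyticAt ℂ (fun w => ds C X.s γ a w (eb I)) z
  P_eq : ∀ γ a I, ∀ z ∈ X.U a I, P (C.pt γ a z) = X.Q a I z * nm C a z (X.θ a I z)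
  W_eq : ∀ γ a I, ∀ z ∈ X.U a I, W (C.pt γ a z) = X.W γ a I z * nm C a z (X.θ a I z)
  K : ℝ
  one_le : 1 ≤ K
  P_le : ∀ γ a I, ∀ z ∈ X.U a I, z ∈ C.B (7 / 4) a → P (C.pt γ a z) ≤ K
  le_P : ∀ γ a I, ∀ z ∈ X.U a I, z ∈ C.B (7 / 4) a → ∑ J, X.Q a J z ≤ K * P (C.pt γ a z)
  θ_le : ∀ a I, ∀ z ∈ X.U a I, z ∈ C.B (7 / 4) a → ∀ v : Fin p → Cm n, ‖v‖ ≤ 1 →
    ‖X.θ a I z v‖ ^ 2 ≤ K * nm C a z (X.θ a I z)
  pd : PD (tu X) (fun a z => ∑ I, X.Q a I z) X.Hb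

/-- **X4-A** -/
def StA : Prop :=
  ∀ (n p : ℕ) (Γ E : Type) [Group Γ] [TopologicalSpace E] [T2Space E] [MulAction Γ E]
    (C : Cov n Γ E) (X : XL C p), Nonempty (AD X)

/-! ### the base -/

/-- the truncation of `Wb` -/
def wb (X : XL C p) (ε : ℝ) (t : Cm p) : ℝ := max (X.Wb t) (ε * X.Hb t)

/-- the link between the functions on the base and the weights -/
structure BL {X : XL C p} (F : XF X) (l μ ε Y r : ℝ) (ψ : Cm p → ℝ) (g : Cm p → ℂ) : Prop where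
  out : ∀ t ∈ ball X.t₀ F.R₃, F.R₁ ≤ ‖t - X.t₀‖ → ψ t = l * cl r (wb X ε) t + μ * cl r X.Hb t
  le : ∀ t ∈ ball X.t₀ F.R₃, ψ t ≤ F.B
  supp : ∀ t ∈ tsupport g, ∃ t' ∈ closedBall t r, 0 < X.Hb t' ∧ -Y ≤ Real.log (X.Hb t')

/-- **X4-B**; the fields `A`, `M`, `Bκ` of `F` are not used -/
def StB : Prop :=
  ∀ (n p : ℕ) (Γ E : Type) [Group Γ] [TopologicalSpace E] [MulAction Γ E]
    (C : Cov n Γ E) (X : XL C p), ∃ (k : ℕ) (l μ : ℝ), 1 ≤ k ∧ 0 ≤ l ∧ 0 ≤ μ ∧ l + μ = k ∧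
    ∀ Pf : Cm p → ℂ, Differentiable ℂ Pf → ∃ F : XF X, ∀ᶠ j in atTop, ∃ N ε Y : ℝ, 0 ≤ N ∧
      0 < ε ∧ ε ≤ 1 ∧ ∀ᶠ r in 𝓝[>] (0 : ℝ), ∃ ψ g Λ, BS F Pf j N ψ g Λ ∧ BL F l μ ε Y r ψ g

/-- **X4-F**: the assembly -/
def StF : Prop := StT → StM → StS → StA → StB → StGeo → StGl → StX4

end Vale.Agent.P284Y.X4
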